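import Vale.Agent.P054.T3.H398.Signs
import Vale.Agent.P054.T3.H109.Part

set_option autoImplicit false
set_option linter.all false

/-!
# P054 / T3 / H398: the cells of a polynomial partition and sign vectors
-/

namespace Vale.Agent.P054.T3.H398

open Finset MvPolynomial Module H109

/-- off the zero sets, `y` lies in the cell `s` exactly if `s` is its sign vector -/
theorem cell_iff_sgn {σ : Type*} {J : ℕ} (f : Fin J → MvPolynomial σ ℝ) (y : σ → ℝ)
    (h : ∀ j, eval y (f j) ≠ 0) (s : Fin J → Bool) : cell f s y ↔ sgn f y = s := by
  constructor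
  · intro hs
    refine (cell_unique hs ?_).symm
    intro j
    unfold sgn
    by_cases h1 : 0 < eval y (f j)
    · simp [h1]
    · simpa [h1] using lt_of_le_of_ne (not_lt.1 h1) (h j)
  · rintro rfl j
    unfold sgn
    by_cases h1 : 0 < eval y (f j)
    · simp [h1]
    · simpa [h1] using lt_of_le_of_ne (not_lt.1 h1) (h j)

end Vale.Agent.P054.T3.H398
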