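import Vale.Agent.P054.T3.H398.PlanarExt

set_option autoImplicit false
set_option linter.all false

/-!
# P054 / T3 / H398: cells for an extremal vertex set, explicit level, any monotone functional
-/

namespace Vale.Agent.P054.T3.H398

open Finset MvPolynomial Module

variable {V : Type*}

open scoped Classical in
/-- the sum of the functional over the classes, for an extremal set -/
theorem sum_class_le {C : Type*} (S : Finset V) (e : Finset V → ℝ)
    (hmono : ∀ T T', T ⊆ T' → T' ⊆ S → e T ≤ e T') (he0 : 0 ≤ e ∅) {θ : ℝ} (hθ : 1 ≤ θ)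
    {z₀ : ℝ} (hext : ∀ T ⊆ S, z₀ ≤ T.card → e T * (S.card : ℝ) ^ θ ≤ e S * (T.card : ℝ) ^ θ)
    (cl : V → Option C) {α δ : ℝ} (hα : 0 ≤ α) (hδ : 0 ≤ δ) (hδ1 : δ ≤ 1)
    (hcell' : ∀ c, ∀ Z ⊆ S, (∀ v ∈ Z, cl v = some c) → (Z.card : ℝ) ≤ α * S.card)
    (hnone' : ∀ Z ⊆ S, (∀ v ∈ Z, cl v = none) → (Z.card : ℝ) ≤ δ * S.card)
    (hz : z₀ + 1 ≤ δ * S.card) {q : ℕ}
    (hq' : ∀ Q : Finset (Option C), (∀ c ∈ Q, ∃ v ∈ S, cl v = c) → Q.card ≤ q) :
    ∑ c ∈ S.image cl, e (S.filter fun v => cl v = c) ≤ e S * (α ^ (θ - 1) + δ + q * δ) := by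
  rcases S.eq_empty_or_nonempty with rfl | hne
  · simp only [image_empty, sum_empty]
    positivity
  have hcell : ∀ c, ((S.filter fun v => cl v = some c).card : ℝ) ≤ α * S.card :=
    fun c => hcell' c _ (filter_subset _ _) fun v hv => (mem_filter.1 hv).2
  have hnone : ((S.filter fun v => cl v = none).card : ℝ) ≤ δ * S.card :=
    hnone' _ (filter_subset _ _) fun v hv => (mem_filter.1 hv).2
  have hq : (S.image cl).card ≤ q := hq' _ fun c hc => by simpa using hc
  have hN : (0 : ℝ) < S.card := by exact_mod_cast hne.card_pos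
  have heS : 0 ≤ e S := he0.trans (hmono ∅ S (empty_subset _) (Finset.Subset.refl _))
  set m₀ : ℕ := ⌈z₀⌉₊ with hm₀
  have hm₀z : z₀ ≤ m₀ := Nat.le_ceil _
  have hm₀' : (m₀ : ℝ) ≤ δ * S.card := by
    rcases le_or_gt z₀ 0 with h | h
    · rw [hm₀, Nat.ceil_eq_zero.2 h]; push_cast; positivity
    · exact (Nat.ceil_lt_add_one h.le).le.trans hz
  have hm₀S : m₀ ≤ S.card := by
    have : (m₀ : ℝ) ≤ S.card := hm₀'.trans (by nlinarith)
    exact_mod_cast this
  -- one set
  have one : ∀ T ⊆ S, e T ≤ e S * (((T.card : ℝ) / S.card) ^ θ + δ) := by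
    intro T hT
    rcases le_or_gt m₀ T.card with h | h
    · have h1 := hext T hT (hm₀z.trans (by exact_mod_cast h))
      have h2 : e T ≤ e S * ((T.card : ℝ) / S.card) ^ θ := by
        rw [Real.div_rpow (Nat.cast_nonneg _) hN.le, ← mul_div_assoc,
          le_div_iff₀ (Real.rpow_pos_of_pos hN _)]
        exact h1
      refine h2.trans ?_
      gcongr
      linarith
    · obtain ⟨T', hTT', hT'S, hc⟩ := Finset.exists_subsuperset_card_eq hT h.le hm₀S
      have h1 := hext T' hT'S (by rw [hc]; exact hm₀z)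
      have h2 : e T' ≤ e S * ((m₀ : ℝ) / S.card) ^ θ := by
        rw [Real.div_rpow (Nat.cast_nonneg _) hN.le, ← mul_div_assoc,
          le_div_iff₀ (Real.rpow_pos_of_pos hN _)]
        rw [hc] at h1
        exact h1
      have h3 : ((m₀ : ℝ) / S.card) ^ θ ≤ δ := by
        have h4 : (m₀ : ℝ) / S.card ≤ δ := by rwa [div_le_iff₀ hN]
        calc ((m₀ : ℝ) / S.card) ^ θ ≤ ((m₀ : ℝ) / S.card) ^ (1 : ℝ) :=
              Real.rpow_le_rpow_of_exponent_ge' (by positivity) (h4.trans hδ1) zero_le_one hθ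
          _ ≤ δ := by rw [Real.rpow_one]; exact h4
      refine (hmono T T' hTT' hT'S).trans (h2.trans ?_)
      have h6 : 0 ≤ ((T.card : ℝ) / S.card) ^ θ := by positivity
      gcongr
      linarith
  have hpart : ∑ c ∈ S.image cl, ((S.filter fun v => cl v = c).card : ℝ) = S.card := by
    exact_mod_cast (Finset.card_eq_sum_card_image cl S).symm
  -- bound of one class
  have hcls : ∀ c ∈ S.image cl, e (S.filter fun v => cl v = c) ≤
        e S * (α ^ (θ - 1) * (((S.filter fun v => cl v = c).card : ℝ) / S.card) +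
          (if c = none then δ else 0) + δ) := by
    intro c hc
    refine (one _ (filter_subset _ _)).trans ?_
    set x : ℝ := ((S.filter fun v => cl v = c).card : ℝ) / S.card with hx
    have hx0 : 0 ≤ x := by positivity
    have hx1 : x ≤ 1 := by
      rw [hx, div_le_one hN]; exact_mod_cast card_le_card (filter_subset _ _)
    have key : x ^ θ ≤ α ^ (θ - 1) * x + (if c = none then δ else 0) := by
      rcases c with _ | c
      · rw [if_pos rfl]
        have h1 : x ≤ δ := by rw [hx, div_le_iff₀ hN]; exact hnone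
        have h2 : x ^ θ ≤ x := by
          calc x ^ θ ≤ x ^ (1 : ℝ) := Real.rpow_le_rpow_of_exponent_ge' hx0 hx1 zero_le_one hθ
            _ = x := Real.rpow_one _
        have h3 : 0 ≤ α ^ (θ - 1) * x := by positivity
        linarith
      · rw [if_neg (by simp)]
        have h1 : x ≤ α := by rw [hx, div_le_iff₀ hN]; exact hcell c
        rcases eq_or_lt_of_le hx0 with h0 | h0
        · rw [← h0, Real.zero_rpow (by linarith)]; simp
        · have h2 : x ^ θ = x ^ (θ - 1) * x := by
            rw [← Real.rpow_add_one h0.ne']; congr 1; ring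
          rw [h2, add_zero]
          have h3 : x ^ (θ - 1) ≤ α ^ (θ - 1) := Real.rpow_le_rpow hx0 h1 (by linarith)
          gcongr
    have : x ^ θ + δ ≤ α ^ (θ - 1) * x + (if c = none then δ else 0) + δ := by linarith
    gcongr
  calc ∑ c ∈ S.image cl, e (S.filter fun v => cl v = c)
      ≤ ∑ c ∈ S.image cl, e S * (α ^ (θ - 1) *
          (((S.filter fun v => cl v = c).card : ℝ) / S.card) + (if c = none then δ else 0) + δ) :=
        Finset.sum_le_sum hcls
    _ = e S * (α ^ (θ - 1) * (∑ c ∈ S.image cl, ((S.filter fun v => cl v = c).card : ℝ) / S.card) +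
          (∑ c ∈ S.image cl, (if c = none then δ else 0)) + (S.image cl).card * δ) := by
        rw [← Finset.mul_sum, Finset.sum_add_distrib, Finset.sum_add_distrib, ← Finset.mul_sum,
          Finset.sum_const, nsmul_eq_mul]
    _ ≤ e S * (α ^ (θ - 1) + δ + q * δ) := by
        have h1 : ∑ c ∈ S.image cl, ((S.filter fun v => cl v = c).card : ℝ) / S.card = 1 := by
          rw [← Finset.sum_div, hpart, div_self hN.ne']
        have h2 : ∑ c ∈ S.image cl, (if c = none then δ else 0) ≤ δ := by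
          rw [Finset.sum_ite_eq']
          split_ifs
          · exact le_rfl
          · exact hδ
        have h3 : ((S.image cl).card : ℝ) ≤ q := by exact_mod_cast hq
        rw [h1, mul_one]
        gcongr

open scoped Classical in
/-- **cells for an extremal set**, level `m` -/
theorem cells_W {σ : Type*} [Fintype σ] [AddCommGroup V] [Module ℝ V]
    [FiniteDimensional ℝ V] (φ : V →ₗ[ℝ] (σ → ℝ)) (k m : ℕ) {θ : ℝ} (hθ : 1 ≤ θ) (hθ2 : θ ≤ 2)
    (hσ : 0 < Fintype.card σ) (S : Finset V) (e : Finset V → ℝ)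
    (hmono : ∀ T T', T ⊆ T' → T' ⊆ S → e T ≤ e T') (he0 : 0 ≤ e ∅) {z₀ : ℝ}
    (hext : ∀ T ⊆ S, z₀ ≤ T.card → e T * (S.card : ℝ) ^ θ ≤ e S * (T.card : ℝ) ^ θ)
    {δ : ℝ} (hδ0 : 0 < δ) (hδ : δ * 4 ^ (Fintype.card σ * m) ≤ 1)
    (hz : z₀ + 1 ≤ δ * S.card)
    (hzero : ∀ f : Fin (Fintype.card σ * m) → MvPolynomial σ ℝ, (∀ j, f j ≠ 0) →
      ∑ j, (f j).totalDegree ≤ 2 * Fintype.card σ ^ 2 * 2 ^ m →
      ∀ Z ⊆ S, (∀ s ∈ Z, ∃ j, eval (φ s) (f j) = 0) → (Z.card : ℝ) ≤ δ * S.card) :
    ∃ cl : V → Option (Fin (Fintype.card σ * m) → Bool),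
      (∀ T ⊆ S, finrank ℝ (vectorSpan ℝ (T : Set V)) ≤ k →
        (T.image cl).card ≤ (k * (2 * Fintype.card σ ^ 2 * 2 ^ m + 2)) ^ k + 1) ∧
      ∑ c ∈ S.image cl, e (S.filter fun v => cl v = c) ≤
        4 * (2 : ℝ) ^ (-((Fintype.card σ * m : ℕ) : ℝ) * (θ - 1)) * e S := by
  set d := Fintype.card σ with hd
  set J := d * m with hJ
  have h4J : (1 : ℝ) ≤ 4 ^ J := one_le_pow₀ (by norm_num)
  have hδ1 : δ ≤ 1 := by
    refine le_trans ?_ hδ
    exact le_mul_of_one_le_right hδ0.le h4J
  obtain ⟨f, hf0, hfd, hfc⟩ := H109.partition_exists (σ := σ) hσ S (fun v => φ v) m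
  let cl : V → Option (Fin J → Bool) := fun v =>
    if ∃ j, eval (φ v) (f j) = 0 then none else some (H109.sgn f (φ v))
  refine ⟨cl, ?_, ?_⟩
  · intro T hT hrk
    set T' := T.filter fun v => ¬ ∃ j, eval (φ v) (f j) = 0 with hT'
    have h1 : T.image cl ⊆ insert none ((T'.image fun v => H109.sgn f (φ v)).image some) := by
      intro c hc
      obtain ⟨v, hv, rfl⟩ := mem_image.1 hc
      simp only [cl]
      split_ifs with h
      · exact mem_insert_self _ _
      · refine mem_insert_of_mem (mem_image_of_mem _ ?_)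
        exact mem_image_of_mem (fun v => H109.sgn f (φ v)) (mem_filter.2 ⟨hv, h⟩)
    have h2 : ∀ T' : Finset V, T' ⊆ T → (∀ v ∈ T', ¬ ∃ j, eval (φ v) (f j) = 0) →
        (T'.image fun v => H109.sgn f (φ v)).card ≤ (k * (∑ j, (f j).totalDegree + 2)) ^ k := by
      intro T' hT'T hT'0
      have h := H109.card_sgn_span_map (k := k) f φ T' ?_ ?_
      · exact le_trans (le_of_eq (congrArg Finset.card (by ext x; simp only [Finset.mem_image]))) h
      · refine le_trans ?_ hrk
        exact Submodule.finrank_mono (vectorSpan_mono ℝ (by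
          intro v hv
          rw [mem_coe] at hv ⊢
          exact hT'T hv))
      · intro v hv j h
        exact hT'0 v hv ⟨j, h⟩
    have h2' := h2 T' (filter_subset _ _) (fun v hv => (mem_filter.1 hv).2)
    have h3 : (k * (∑ j, (f j).totalDegree + 2)) ^ k ≤ (k * (2 * d ^ 2 * 2 ^ m + 2)) ^ k := by
      refine Nat.pow_le_pow_left (Nat.mul_le_mul_left _ ?_) _
      have : ∑ j, (f j).totalDegree ≤ 2 * d ^ 2 * 2 ^ m := hfd
      omega
    calc (T.image cl).card ≤ _ := card_le_card h1
      _ ≤ ((T'.image fun v => H109.sgn f (φ v)).image some).card + 1 := card_insert_le _ _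
      _ ≤ (T'.image fun v => H109.sgn f (φ v)).card + 1 := by
          have := card_image_le (s := T'.image fun v => H109.sgn f (φ v)) (f := some)
          omega
      _ ≤ (k * (2 * d ^ 2 * 2 ^ m + 2)) ^ k + 1 := by omega
  · have hJ2 : (0 : ℝ) < 2 ^ J := by positivity
    set α : ℝ := (1 / 2 ^ J : ℝ) with hα
    have hα0 : 0 ≤ α := by rw [hα]; positivity
    have h2 := sum_class_le S e hmono he0 hθ hext cl
      (α := α) (δ := δ) (q := 2 ^ J + 1) hα0 hδ0.le hδ1 ?_ ?_ hz ?_
    · have h3 : α ^ (θ - 1) = (2 : ℝ) ^ (-((d * m : ℕ) : ℝ) * (θ - 1)) := by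
        rw [hα, one_div, Real.rpow_mul (by norm_num), Real.rpow_neg (by norm_num),
          Real.rpow_natCast]
      have heS : 0 ≤ e S := he0.trans (hmono ∅ S (empty_subset _) (Finset.Subset.refl _))
      have hαθ : α ≤ α ^ (θ - 1) := by
        have hα1 : α ≤ 1 := by
          rw [hα, div_le_one hJ2]; exact one_le_pow₀ (by norm_num)
        calc α = α ^ (1 : ℝ) := (Real.rpow_one _).symm
          _ ≤ α ^ (θ - 1) :=
            Real.rpow_le_rpow_of_exponent_ge (by rw [hα]; positivity) hα1 (by linarith)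
      have h4 : δ + ((2 ^ J + 1 : ℕ) : ℝ) * δ ≤ 3 * α := by
        have h5 : δ ≤ 1 / 4 ^ J := by rwa [le_div_iff₀ (by positivity)]
        have h6 : (4 : ℝ) ^ J = 2 ^ J * 2 ^ J := by rw [← mul_pow]; norm_num
        have h7 : (1 : ℝ) ≤ 2 ^ J := one_le_pow₀ (by norm_num)
        have h8 : δ * 2 ^ J ≤ α := by
          rw [hα, le_div_iff₀ hJ2, mul_assoc, ← h6]; exact hδ
        push_cast
        nlinarith
      calc ∑ c ∈ S.image cl, e (S.filter fun v => cl v = c)
          ≤ e S * (α ^ (θ - 1) + δ + ((2 ^ J + 1 : ℕ) : ℝ) * δ) := by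
            refine le_trans (le_of_eq ?_) h2
            refine Finset.sum_congr (by ext x; simp only [Finset.mem_image]) fun c _ =>
              congrArg e ?_
            ext v
            simp only [Finset.mem_filter]
        _ ≤ e S * (4 * α ^ (θ - 1)) := by
            have h5 : α ^ (θ - 1) + δ + ((2 ^ J + 1 : ℕ) : ℝ) * δ ≤ 4 * α ^ (θ - 1) := by
              linarith
            gcongr
        _ = 4 * (2 : ℝ) ^ (-((J : ℕ) : ℝ) * (θ - 1)) * e S := by rw [h3]; ring
    · intro c Z hZS hZ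
      have h3 := hfc c
      have h4 : Z ⊆ S.filter fun v => H109.cell f c (φ v) := by
        intro v hv
        rw [mem_filter]
        refine ⟨hZS hv, ?_⟩
        have h5 := hZ v hv
        simp only [cl] at h5
        split_ifs at h5 with h6
        have h7 : H109.sgn f (φ v) = c := by simpa using h5
        have h8 : ∀ j, eval (φ v) (f j) ≠ 0 := fun j h => h6 ⟨j, h⟩
        rw [← h7]
        exact H109.cell_sgn h8
      have h5 : (2 ^ J * Z.card : ℕ) ≤ S.card := by
        refine le_trans (Nat.mul_le_mul_left _ (card_le_card h4)) ?_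
        refine le_trans (le_of_eq (congrArg (fun x => 2 ^ J * x) (congrArg Finset.card ?_))) h3
        ext v
        simp only [Finset.mem_filter]
      have h6 : (2 : ℝ) ^ J * (Z.card : ℝ) ≤ S.card := by
        exact_mod_cast h5
      rw [hα, one_div, inv_mul_eq_div, le_div_iff₀ hJ2, mul_comm]
      exact h6
    · intro Z hZS hZ
      refine hzero f hf0 hfd Z hZS ?_
      intro v hv
      have h5 := hZ v hv
      simp only [cl] at h5
      split_ifs at h5 with h6
      exact h6
    · intro Q hQ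
      have h3 : Q.card ≤ Fintype.card (Option (Fin J → Bool)) := card_le_univ _
      refine h3.trans ?_
      rw [Fintype.card_option, Fintype.card_fun, Fintype.card_bool, Fintype.card_fin]

end Vale.Agent.P054.T3.H398
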