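import Vale.Agent.P054.T3.H109.ST

set_option autoImplicit false
set_option linter.all false

/-!
# P054 / T3 / H398: the planar count with cells (abstract)

`cnt_flats`: `SF F` (`F ∈ 𝓕`) are cliques of a graph on `S`; `cl` = class map with at most `κ₀`
classes on each `SF F`; pairs of `SF F` which lie in a second `SF F'` are on `m` lines through `s`.
Then `∑ |SF F|² ≤ 2 κ₀ #{adjacent pairs of S in the same class}`.
-/

namespace Vale.Agent.P054.T3.H398

open Finset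
open Vale.Agent.P054.T3.H109.Gen (onL lineC st_pairs)

variable {V κ C : Type*} [AddCommGroup V] [Module ℝ V]

theorem onL_trans {s u r r' : V} (hr : r ≠ s) (h : onL s u r) (h' : onL s u r') : onL s r r' := by
  obtain ⟨a, rfl⟩ := h
  obtain ⟨b, rfl⟩ := h'
  have ha : a ≠ 0 := by
    rintro rfl
    apply hr
    simp
  refine ⟨b / a, ?_⟩
  rw [add_sub_cancel_left, smul_smul, div_mul_cancel₀ _ ha]

/-- Cauchy–Schwarz over the classes -/
theorem sq_card_le_classes {α β : Type*} [DecidableEq α] [DecidableEq β] (S : Finset α)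
    (f : α → β) {κ₀ : ℕ} (h : (S.image f).card ≤ κ₀) :
    S.card ^ 2 ≤ κ₀ * ((S.offDiag.filter fun p => f p.1 = f p.2).card + S.card) := by
  have h1 := Vale.Agent.P054.T3.H109.sq_card_le_image_mul S f
  refine h1.trans (Nat.mul_le_mul h ?_)
  have h2 : ((S ×ˢ S).filter fun p => f p.1 = f p.2) ⊆
      (S.offDiag.filter fun p => f p.1 = f p.2) ∪ S.diag := by
    intro p hp
    rw [mem_filter, mem_product] at hp
    rw [mem_union, mem_filter, mem_offDiag, mem_diag]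
    by_cases h3 : p.1 = p.2
    · exact Or.inr ⟨hp.1.1, h3⟩
    · exact Or.inl ⟨⟨hp.1.1, hp.1.2, h3⟩, hp.2⟩
  refine (card_le_card h2).trans ((card_union_le _ _).trans ?_)
  rw [diag_card]

open scoped Classical in
/-- pairs on the `m` multiple lines through `s` -/
theorem card_multi_le (A : Finset V) (m k L : ℕ) (hk : 1 ≤ k)
    (hL : ∀ p ∈ A.offDiag, lineC A p.1 p.2 ≤ L) (Mp : V → V → Prop)
    (hM : ∀ s ∈ A, ∃ U : Finset V, U.card ≤ m ∧ ∀ r ∈ A, r ≠ s → Mp s r → ∃ u ∈ U, onL s u r) :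
    ∃ M₂ : Finset (V × V), (∀ p ∈ A.offDiag, Mp p.1 p.2 → p ∈ M₂) ∧ (M₂.card : ℝ) ≤
      A.card * (m * k) + (373248 * ((A.card : ℝ) ^ 2 / k) + 16 * A.card * L) := by
  refine ⟨A.offDiag.filter fun p => Mp p.1 p.2, fun p hp h => mem_filter.2 ⟨hp, h⟩, ?_⟩
  have h1 : (A.offDiag.filter fun p => Mp p.1 p.2) ⊆
      (A.offDiag.filter fun p => Mp p.1 p.2 ∧ lineC A p.1 p.2 < k) ∪
        (A.offDiag.filter fun p => k ≤ lineC A p.1 p.2) := by
    intro p hp
    rw [mem_filter] at hp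
    rw [mem_union, mem_filter, mem_filter]
    rcases Nat.lt_or_ge (lineC A p.1 p.2) k with h | h
    · exact Or.inl ⟨hp.1, hp.2, h⟩
    · exact Or.inr ⟨hp.1, h⟩
  have h2 : (A.offDiag.filter fun p => Mp p.1 p.2 ∧ lineC A p.1 p.2 < k).card ≤
      A.card * (m * k) := by
    rw [Finset.card_eq_sum_card_fiberwise (f := Prod.fst) (t := A)]
    · refine (Finset.sum_le_card_nsmul _ _ (m * k) ?_).trans (le_of_eq (by rw [smul_eq_mul]))
      intro s hs
      obtain ⟨U, hU, hU2⟩ := hM s hs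
      have h3 : ((A.offDiag.filter fun p => Mp p.1 p.2 ∧ lineC A p.1 p.2 < k).filter
          fun p => p.1 = s) ⊆
          U.biUnion fun u => ((A.filter fun r => onL s u r ∧ r ≠ s ∧ lineC A s r < k).image
            fun r => (s, r)) := by
        intro p hp
        rw [mem_filter, mem_filter, mem_offDiag] at hp
        obtain ⟨⟨⟨a1, a2, a3⟩, a4, a5⟩, rfl⟩ := hp
        obtain ⟨u, hu, hur⟩ := hU2 p.2 a2 (Ne.symm a3) a4
        rw [mem_biUnion]
        exact ⟨u, hu, mem_image.2 ⟨p.2, mem_filter.2 ⟨a2, hur, Ne.symm a3, a5⟩, rfl⟩⟩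
      refine (card_le_card h3).trans ?_
      refine (card_biUnion_le_card_mul _ _ k ?_).trans (Nat.mul_le_mul_right _ hU)
      intro u hu
      refine card_image_le.trans ?_
      rcases (A.filter fun r => onL s u r ∧ r ≠ s ∧ lineC A s r < k).eq_empty_or_nonempty
        with h0 | ⟨r₀, hr₀⟩
      · rw [h0]; simp
      · obtain ⟨b1, b2, b3, b4⟩ := mem_filter.1 hr₀
        refine le_trans ?_ b4.le
        rw [Vale.Agent.P054.T3.H109.Gen.lineC_eq]
        refine card_le_card ?_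
        intro r hr
        obtain ⟨c1, c2, c3, c4⟩ := mem_filter.1 hr
        exact mem_filter.2 ⟨c1, onL_trans b3 b2 c2⟩
    · intro p hp
      have := mem_offDiag.1 (mem_filter.1 (mem_coe.1 hp)).1
      exact mem_coe.2 this.1
  have h4 := st_pairs A k L hk hL
  have h5 : ((A.offDiag.filter fun p => Mp p.1 p.2).card : ℝ) ≤
      ((A.offDiag.filter fun p => Mp p.1 p.2 ∧ lineC A p.1 p.2 < k).card : ℝ) +
        ((A.offDiag.filter fun p => k ≤ lineC A p.1 p.2).card : ℝ) := by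
    exact_mod_cast (card_le_card h1).trans (card_union_le _ _)
  have h6 : ((A.offDiag.filter fun p => Mp p.1 p.2 ∧ lineC A p.1 p.2 < k).card : ℝ) ≤
      A.card * (m * k) := by exact_mod_cast h2
  linarith

open scoped Classical in
/-- **planar count with cells** -/
theorem cnt_flats (𝓕 : Finset κ) (SF : κ → Finset V) (S : Finset V) (hS : ∀ F ∈ 𝓕, SF F ⊆ S)
    (adj : V → V → Prop) (hadj : ∀ F ∈ 𝓕, ∀ s ∈ SF F, ∀ r ∈ SF F, s ≠ r → adj s r)
    (cl : V → C) (κ₀ : ℕ) (hcl : ∀ F ∈ 𝓕, ((SF F).image cl).card ≤ κ₀)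
    (m k L : ℕ) (hL : ∀ F ∈ 𝓕, ∀ p ∈ (SF F).offDiag, lineC (SF F) p.1 p.2 ≤ L)
    (hM : ∀ F ∈ 𝓕, ∀ s ∈ SF F, ∃ U : Finset V, U.card ≤ m ∧ ∀ r ∈ SF F, r ≠ s →
      (∃ F' ∈ 𝓕, F' ≠ F ∧ s ∈ SF F' ∧ r ∈ SF F') → ∃ u ∈ U, onL s u r)
    (hk : 4 * 373248 * κ₀ ≤ k) (hbig : ∀ F ∈ 𝓕, 4 * κ₀ * (m * k + 16 * L + 1) ≤ (SF F).card) :
    ∑ F ∈ 𝓕, ((SF F).card : ℝ) ^ 2 ≤
      2 * κ₀ * (S.offDiag.filter fun p => adj p.1 p.2 ∧ cl p.1 = cl p.2).card := by
  rcases 𝓕.eq_empty_or_nonempty with rfl | ⟨F₀, hF₀⟩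
  · simp only [sum_empty]; positivity
  have hκ : 1 ≤ κ₀ ∨ ∀ F ∈ 𝓕, SF F = ∅ := by
    rcases Nat.eq_zero_or_pos κ₀ with h | h
    · right
      intro F hF
      have h1 := hcl F hF
      rw [h, Nat.le_zero, card_eq_zero, image_eq_empty] at h1
      exact h1
    · exact Or.inl h
  rcases hκ with hκ | hκ
  swap
  · rw [Finset.sum_eq_zero]
    · positivity
    · intro F hF
      rw [hκ F hF]; simp
  have hκr : (1:ℝ) ≤ κ₀ := by exact_mod_cast hκ
  have hk1 : 1 ≤ k := by omega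
  have hkr : (4 * 373248 * (κ₀:ℝ)) ≤ k := by exact_mod_cast hk
  have hk0 : (0:ℝ) < k := by linarith
  set Mp : κ → V → V → Prop := fun F s r => ∃ F' ∈ 𝓕, F' ≠ F ∧ s ∈ SF F' ∧ r ∈ SF F' with hMp
  set G : κ → Finset (V × V) := fun F =>
    (SF F).offDiag.filter fun p => cl p.1 = cl p.2 ∧ ¬ Mp F p.1 p.2 with hG
  set Q := S.offDiag.filter fun p => adj p.1 p.2 ∧ cl p.1 = cl p.2 with hQ
  -- the good pairs are disjoint
  have hdisj : (𝓕 : Set κ).PairwiseDisjoint G := by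
    intro F hF F' hF' hne
    rw [Function.onFun, Finset.disjoint_left]
    intro p hp hp'
    simp only [hG, mem_filter, mem_offDiag] at hp hp'
    exact hp.2.2 ⟨F', hF', hne.symm, hp'.1.1, hp'.1.2.1⟩
  have hsum : ∑ F ∈ 𝓕, ((G F).card : ℝ) ≤ Q.card := by
    have h1 : ∑ F ∈ 𝓕, (G F).card ≤ Q.card := by
      rw [← card_biUnion hdisj]
      refine card_le_card ?_
      intro p hp
      obtain ⟨F, hF, hpF⟩ := mem_biUnion.1 hp
      simp only [hG, mem_filter, mem_offDiag] at hpF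
      obtain ⟨⟨a1, a2, a3⟩, a4, -⟩ := hpF
      simp only [hQ, mem_filter, mem_offDiag]
      exact ⟨⟨hS F hF a1, hS F hF a2, a3⟩, hadj F hF _ a1 _ a2 a3, a4⟩
    exact_mod_cast h1
  -- one flat
  have hone : ∀ F ∈ 𝓕, ((SF F).card : ℝ) ^ 2 ≤ 2 * κ₀ * (G F).card := by
    intro F hF
    set g : ℝ := ((SF F).card : ℝ) with hg
    have hg0 : 0 ≤ g := Nat.cast_nonneg _
    obtain ⟨M₂, hM₂, h3⟩ : ∃ M₂ : Finset (V × V),
        (∀ p ∈ (SF F).offDiag, Mp F p.1 p.2 → p ∈ M₂) ∧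
        (M₂.card : ℝ) ≤ g * (m * k) + (373248 * (g ^ 2 / k) + 16 * g * L) := by
      exact card_multi_le (SF F) m k L hk1 (hL F hF) (Mp F) (hM F hF)
    obtain ⟨B, hB1, hB2⟩ : ∃ B : ℕ, (SF F).card ^ 2 ≤ κ₀ * (B + (SF F).card) ∧
        B ≤ (G F).card + M₂.card := by
      refine ⟨_, sq_card_le_classes (SF F) cl (hcl F hF), ?_⟩
      refine le_trans (card_le_card ?_) (card_union_le _ _)
      intro p hp
      rw [mem_filter] at hp
      rw [mem_union]
      by_cases h4 : Mp F p.1 p.2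
      · exact Or.inr (hM₂ p hp.1 h4)
      · exact Or.inl (mem_filter.2 ⟨hp.1, hp.2, h4⟩)
    have h1 : g ^ 2 ≤ κ₀ * ((B : ℝ) + g) := by
      rw [hg]; exact_mod_cast hB1
    have h2 : (B : ℝ) ≤ (G F).card + M₂.card := by
      exact_mod_cast hB2
    have h4 : (4 * κ₀ * (m * k + 16 * L + 1) : ℝ) ≤ g := by
      have := hbig F hF
      rw [hg]; exact_mod_cast this
    have h5 : 373248 * (g ^ 2 / k) ≤ g ^ 2 / (4 * κ₀) := by
      rw [le_div_iff₀ (by positivity), mul_assoc, div_mul_eq_mul_div, ← mul_div_assoc,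
        div_le_iff₀ hk0]
      nlinarith [mul_le_mul_of_nonneg_left hkr (sq_nonneg g)]
    have h6 : g * (m * k) + 16 * g * L + g ≤ g ^ 2 / (4 * κ₀) := by
      rw [le_div_iff₀ (by positivity)]
      nlinarith [mul_le_mul_of_nonneg_left h4 hg0]
    have h7 : g ^ 2 ≤ κ₀ * ((G F).card + g ^ 2 / (4 * κ₀) + g ^ 2 / (4 * κ₀)) := by
      refine h1.trans (mul_le_mul_of_nonneg_left ?_ (by linarith))
      linarith
    have h8 : (κ₀:ℝ) * ((G F).card + g ^ 2 / (4 * κ₀) + g ^ 2 / (4 * κ₀)) =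
        κ₀ * (G F).card + g ^ 2 / 2 := by
      field_simp
      ring
    rw [h8] at h7
    linarith
  calc ∑ F ∈ 𝓕, ((SF F).card : ℝ) ^ 2 ≤ ∑ F ∈ 𝓕, 2 * κ₀ * ((G F).card : ℝ) :=
        Finset.sum_le_sum hone
    _ = 2 * κ₀ * ∑ F ∈ 𝓕, ((G F).card : ℝ) := by rw [Finset.mul_sum]
    _ ≤ 2 * κ₀ * Q.card := mul_le_mul_of_nonneg_left hsum (by positivity)

end Vale.Agent.P054.T3.H398
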