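import Mathlib

set_option autoImplicit false
set_option linter.all false

/-!
# P054 / T3 / H398: sign classes of polynomials, critical points

`exists_crit`: if `T` is a finite set of points of `ℝ^k` at which no `g j` vanishes and whose sign
vectors are different, there are a polynomial `h` with `deg h ≤ 2 ∑ deg g j + 2` and `a` such that
`∇ h = a` has at least `|T|` solutions, all nondegenerate.
-/

namespace Vale.Agent.P054.T3.H398

open MvPolynomial Finset MeasureTheory Topology

variable {k : ℕ}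

/-- the differential of a polynomial function -/
noncomputable def dev (p : MvPolynomial (Fin k) ℝ) (z : Fin k → ℝ) : (Fin k → ℝ) →L[ℝ] ℝ :=
  ∑ i, (eval z (pderiv i p)) • ContinuousLinearMap.proj (R := ℝ) (φ := fun _ : Fin k => ℝ) i

theorem dev_apply (p : MvPolynomial (Fin k) ℝ) (z v : Fin k → ℝ) :
    dev p z v = ∑ i, eval z (pderiv i p) * v i := by
  simp [dev, ContinuousLinearMap.sum_apply]

theorem dev_single (p : MvPolynomial (Fin k) ℝ) (z : Fin k → ℝ) (i : Fin k) :
    dev p z (Pi.single i 1) = eval z (pderiv i p) := by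
  rw [dev_apply, Finset.sum_eq_single i]
  · simp
  · intro j _ hj; simp [Pi.single_apply, hj]
  · intro h; exact absurd (mem_univ _) h

theorem hasFDerivAt_eval (p : MvPolynomial (Fin k) ℝ) (z : Fin k → ℝ) :
    HasFDerivAt (fun y => eval y p) (dev p z) z := by
  induction p using MvPolynomial.induction_on with
  | C a =>
    have h1 : dev (C a : MvPolynomial (Fin k) ℝ) z = 0 := by
      ext v; simp [dev_apply]
    rw [h1]
    simpa using hasFDerivAt_const (𝕜 := ℝ) a z
  | add p q hp hq =>
    have h1 : dev (p + q) z = dev p z + dev q z := by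
      ext v
      simp only [dev_apply, map_add, ContinuousLinearMap.add_apply, add_mul, Finset.sum_add_distrib]
    rw [h1]
    simpa only [map_add] using hp.fun_add hq
  | mul_X p i hp =>
    have h2 : HasFDerivAt (fun y : Fin k → ℝ => y i)
        (ContinuousLinearMap.proj (R := ℝ) (φ := fun _ : Fin k => ℝ) i) z :=
      (ContinuousLinearMap.proj (R := ℝ) (φ := fun _ : Fin k => ℝ) i).hasFDerivAt
    have h3 := hp.fun_mul h2
    have h4 : dev (p * X i) z = eval z p •
        (ContinuousLinearMap.proj (R := ℝ) (φ := fun _ : Fin k => ℝ) i) + z i • dev p z := by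
      ext v
      simp only [dev_apply, ContinuousLinearMap.add_apply, ContinuousLinearMap.smul_apply,
        smul_eq_mul, ContinuousLinearMap.proj_apply]
      have h5 : ∀ j, eval z (pderiv j (p * X i)) * v j =
          z i * (eval z (pderiv j p) * v j) + eval z p * (if j = i then v j else 0) := by
        intro j
        rw [Derivation.leibniz, smul_eq_mul, smul_eq_mul, map_add, map_mul, map_mul, eval_X,
          pderiv_X]
        by_cases hj : j = i
        · subst hj; simp; ring
        · have : (Pi.single j (1 : MvPolynomial (Fin k) ℝ) : Fin k → MvPolynomial (Fin k) ℝ) i = 0 := by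
            rw [Pi.single_apply, if_neg]; exact fun h => hj h.symm
          rw [this]; simp [hj]; ring
      rw [Finset.sum_congr rfl fun j _ => h5 j, Finset.sum_add_distrib, ← Finset.mul_sum,
        ← Finset.mul_sum, Finset.sum_ite_eq' univ i, if_pos (mem_univ _)]
      ring
    rw [h4]
    simpa only [map_mul, eval_X] using h3

theorem continuous_eval_mv (p : MvPolynomial (Fin k) ℝ) : Continuous fun y : Fin k → ℝ => eval y p :=
  continuous_iff_continuousAt.2 fun z => (hasFDerivAt_eval p z).continuousAt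

/-- the gradient map -/
noncomputable def gmap (h : MvPolynomial (Fin k) ℝ) (z : Fin k → ℝ) : Fin k → ℝ :=
  fun i => eval z (pderiv i h)

/-- the Hessian -/
noncomputable def hess (h : MvPolynomial (Fin k) ℝ) (z : Fin k → ℝ) :
    (Fin k → ℝ) →L[ℝ] (Fin k → ℝ) :=
  ContinuousLinearMap.pi fun i => dev (pderiv i h) z

theorem hasFDerivAt_gmap (h : MvPolynomial (Fin k) ℝ) (z : Fin k → ℝ) :
    HasFDerivAt (gmap h) (hess h z) z := by
  unfold hess
  rw [hasFDerivAt_pi]
  intro i
  exact hasFDerivAt_eval _ _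

/-- rows of the Hessian independent if the determinant is not zero -/
theorem li_of_det (h : MvPolynomial (Fin k) ℝ) (z : Fin k → ℝ) (hd : (hess h z).det ≠ 0) :
    LinearIndependent ℝ (fun i : Fin k => fun j => eval z (pderiv j (pderiv i h))) := by
  classical
  have h1 : LinearMap.det (hess h z : (Fin k → ℝ) →ₗ[ℝ] (Fin k → ℝ)) ≠ 0 := hd
  set M : Matrix (Fin k) (Fin k) ℝ := Matrix.of fun i j => eval z (pderiv j (pderiv i h)) with hM
  have h2 : (hess h z : (Fin k → ℝ) →ₗ[ℝ] (Fin k → ℝ)) = Matrix.toLin' M := by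
    apply (Pi.basisFun ℝ (Fin k)).ext
    intro j
    ext i
    simp only [Pi.basisFun_apply, ContinuousLinearMap.coe_coe, Matrix.toLin'_apply]
    rw [Matrix.mulVec_single_one]
    simp only [hess, ContinuousLinearMap.coe_pi', dev_single]
    rfl
  rw [h2, LinearMap.det_toLin'] at h1
  exact Matrix.linearIndependent_rows_of_det_ne_zero h1

/-- **Sard**: small regular values of the gradient map -/
theorem exists_regular (h : MvPolynomial (Fin k) ℝ) {ε : ℝ} (hε : 0 < ε) :
    ∃ a : Fin k → ℝ, (∀ i, |a i| ≤ ε) ∧ ∀ z, gmap h z = a → (hess h z).det ≠ 0 := by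
  classical
  set s : Set (Fin k → ℝ) := {z | (hess h z).det = 0} with hs
  have h1 : volume (gmap h '' s) = 0 :=
    addHaar_image_eq_zero_of_det_fderivWithin_eq_zero volume
      (fun x _ => (hasFDerivAt_gmap h x).hasFDerivWithinAt) (fun x hx => hx)
  by_contra hcon
  push Not at hcon
  have h2 : Metric.closedBall (0 : Fin k → ℝ) ε ⊆ gmap h '' s := by
    intro a ha
    have h3 : ∀ i, |a i| ≤ ε := by
      intro i
      have := norm_le_pi_norm a i
      rw [Real.norm_eq_abs] at this
      rw [mem_closedBall_zero_iff] at ha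
      exact this.trans ha
    obtain ⟨z, hz, hz'⟩ := hcon a h3
    exact ⟨z, hz', hz⟩
  have h4 : volume (Metric.closedBall (0 : Fin k → ℝ) ε) = 0 := measure_mono_null h2 h1
  exact (Metric.measure_closedBall_pos volume (0 : Fin k → ℝ) hε).ne' h4


/-- the sign vector -/
noncomputable def sgn {σ : Type*} {J : ℕ} (g : Fin J → MvPolynomial σ ℝ) (y : σ → ℝ) : Fin J → Bool :=
  fun j => decide (0 < eval y (g j))

theorem pderiv_degree_le (p : MvPolynomial (Fin k) ℝ) (i : Fin k) :
    (pderiv i p).totalDegree ≤ p.totalDegree := by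
  classical
  conv_lhs => rw [p.as_sum]
  rw [map_sum]
  refine totalDegree_finsetSum_le fun m hm => ?_
  rw [pderiv_monomial]
  refine (totalDegree_monomial_le _ _).trans ?_
  have h1 : (m - Finsupp.single i 1).sum (fun _ => id) ≤ m.sum fun _ => id := by
    rw [Finsupp.sum_fintype _ _ (fun _ => rfl), Finsupp.sum_fintype _ _ (fun _ => rfl)]
    refine Finset.sum_le_sum fun j _ => ?_
    simp only [Finsupp.tsub_apply, id]
    omega
  exact h1.trans (le_totalDegree hm)

/-- the auxiliary polynomial `(∏ g)² (ρ² - |z|²)` -/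
noncomputable def aux {J : ℕ} (g : Fin J → MvPolynomial (Fin k) ℝ) (ρ : ℝ) :
    MvPolynomial (Fin k) ℝ := (∏ j, g j) ^ 2 * (C (ρ ^ 2) - ∑ i, X i ^ 2)

theorem aux_degree {J : ℕ} (g : Fin J → MvPolynomial (Fin k) ℝ) (ρ : ℝ) :
    (aux g ρ).totalDegree ≤ 2 * ∑ j, (g j).totalDegree + 2 := by
  unfold aux
  refine (totalDegree_mul _ _).trans (Nat.add_le_add ?_ ?_)
  · refine (totalDegree_pow _ _).trans (Nat.mul_le_mul_left _ ?_)
    exact totalDegree_finset_prod _ _
  · refine (totalDegree_sub _ _).trans ?_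
    rw [totalDegree_C]
    refine max_le (Nat.zero_le _) ?_
    refine totalDegree_finsetSum_le fun i _ => ?_
    refine (totalDegree_pow _ _).trans ?_
    rw [totalDegree_X]

theorem eval_aux {J : ℕ} (g : Fin J → MvPolynomial (Fin k) ℝ) (ρ : ℝ) (z : Fin k → ℝ) :
    eval z (aux g ρ) = (∏ j, eval z (g j)) ^ 2 * (ρ ^ 2 - ∑ i, z i ^ 2) := by
  simp [aux, map_prod]

/-- **critical points** -/
theorem exists_crit {J : ℕ} (g : Fin J → MvPolynomial (Fin k) ℝ) (T : Finset (Fin k → ℝ))
    (hT : ∀ x ∈ T, ∀ j, eval x (g j) ≠ 0)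
    (hinj : ∀ x ∈ T, ∀ y ∈ T, sgn g x = sgn g y → x = y) :
    ∃ h : MvPolynomial (Fin k) ℝ, h.totalDegree ≤ 2 * ∑ j, (g j).totalDegree + 2 ∧
      ∃ a : Fin k → ℝ, ∃ Z : Finset (Fin k → ℝ), T.card ≤ Z.card ∧
        ∀ z ∈ Z, gmap h z = a ∧ (hess h z).det ≠ 0 := by
  classical
  rcases T.eq_empty_or_nonempty with rfl | hTn
  · exact ⟨0, by simp, 0, ∅, by simp, by simp⟩
  -- the radius
  obtain ⟨ρ, hρ1, hρ⟩ : ∃ ρ : ℝ, 1 ≤ ρ ∧ ∀ x ∈ T, ∑ i, x i ^ 2 < ρ ^ 2 := by
    refine ⟨∑ x ∈ T, ∑ i, x i ^ 2 + 1, ?_, fun x hx => ?_⟩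
    · have : 0 ≤ ∑ x ∈ T, ∑ i, x i ^ 2 :=
        Finset.sum_nonneg fun x _ => Finset.sum_nonneg fun i _ => sq_nonneg _
      linarith
    · have h1 : ∑ i, x i ^ 2 ≤ ∑ x ∈ T, ∑ i, x i ^ 2 :=
        Finset.single_le_sum (f := fun x : Fin k → ℝ => ∑ i, x i ^ 2)
          (fun x _ => Finset.sum_nonneg fun i _ => sq_nonneg _) hx
      have h0 : 0 ≤ ∑ i, x i ^ 2 := Finset.sum_nonneg fun i _ => sq_nonneg _
      nlinarith
  set h := aux g ρ with hh
  have hpos : ∀ x ∈ T, 0 < eval x h := by
    intro x hx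
    rw [hh, eval_aux]
    have h1 : ∏ j, eval x (g j) ≠ 0 := Finset.prod_ne_zero_iff.2 fun j _ => hT x hx j
    have h2 := hρ x hx
    have h3 : 0 < (∏ j, eval x (g j)) ^ 2 := by positivity
    exact mul_pos h3 (by linarith)
  obtain ⟨x₀, hx₀, hmin⟩ := T.exists_min_image (fun x => eval x h) hTn
  set δ := eval x₀ h with hδ
  have hδ0 : 0 < δ := hpos x₀ hx₀
  have hk0 : (0:ℝ) < 4 * ρ * (k + 1) := by positivity
  obtain ⟨a, ha, hreg⟩ := exists_regular h (ε := δ / (4 * ρ * (k + 1))) (by positivity)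
  -- the linear form is small on the ball
  have hlin : ∀ z : Fin k → ℝ, ∑ i, z i ^ 2 ≤ ρ ^ 2 → |∑ i, a i * z i| ≤ δ / 4 := by
    intro z hz
    have h1 : ∀ i, |z i| ≤ ρ := by
      intro i
      have h2 : z i ^ 2 ≤ ∑ i, z i ^ 2 :=
        Finset.single_le_sum (f := fun i => z i ^ 2) (fun i _ => sq_nonneg _) (mem_univ i)
      exact abs_le_of_sq_le_sq (h2.trans hz) (by linarith)
    calc |∑ i, a i * z i| ≤ ∑ i, |a i * z i| := Finset.abs_sum_le_sum_abs _ _
      _ ≤ ∑ _i : Fin k, δ / (4 * ρ * (k + 1)) * ρ := by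
          refine Finset.sum_le_sum fun i _ => ?_
          rw [abs_mul]
          exact mul_le_mul (ha i) (h1 i) (abs_nonneg _) (by positivity)
      _ = k * (δ / (4 * ρ * (k + 1)) * ρ) := by simp
      _ = δ / 4 * (k / (k + 1)) := by field_simp
      _ ≤ δ / 4 * 1 := by
          refine mul_le_mul_of_nonneg_left ?_ (by positivity)
          rw [div_le_one (by positivity)]
          linarith
      _ = δ / 4 := mul_one _
  -- the closed pieces
  set Kx : (Fin k → ℝ) → Set (Fin k → ℝ) := fun x =>
    {z | ∑ i, z i ^ 2 ≤ ρ ^ 2 ∧ ∀ j, 0 ≤ eval x (g j) * eval z (g j)} with hKx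
  have hcomp : ∀ x, IsCompact (Kx x) := by
    intro x
    refine Metric.isCompact_of_isClosed_isBounded ?_ ?_
    · have e : Kx x = {z : Fin k → ℝ | ∑ i, z i ^ 2 ≤ ρ ^ 2} ∩
          ⋂ j, {z : Fin k → ℝ | 0 ≤ eval x (g j) * eval z (g j)} := by
        ext z; simp [hKx]
      rw [e]
      refine IsClosed.inter ?_ ?_
      · exact isClosed_le (continuous_finset_sum _ fun i _ => (continuous_apply i).pow 2)
          continuous_const
      · exact isClosed_iInter fun j => isClosed_le continuous_const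
          (continuous_const.mul (continuous_eval_mv _))
    · refine (Metric.isBounded_closedBall (x := (0 : Fin k → ℝ)) (r := ρ)).subset ?_
      intro z hz
      rw [mem_closedBall_zero_iff, pi_norm_le_iff_of_nonneg (by linarith)]
      intro i
      rw [Real.norm_eq_abs]
      have h2 : z i ^ 2 ≤ ∑ i, z i ^ 2 :=
        Finset.single_le_sum (f := fun i => z i ^ 2) (fun i _ => sq_nonneg _) (mem_univ i)
      exact abs_le_of_sq_le_sq (h2.trans hz.1) (by linarith)
  have hcont : Continuous fun z : Fin k → ℝ => eval z h - ∑ i, a i * z i :=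
    (continuous_eval_mv h).sub (continuous_finset_sum _ fun i _ =>
      continuous_const.mul (continuous_apply i))
  have key : ∀ x ∈ T, ∃ z : Fin k → ℝ, gmap h z = a ∧ ∀ j, 0 < eval x (g j) * eval z (g j) := by
    intro x hx
    have hxK : x ∈ Kx x := ⟨(hρ x hx).le, fun j => mul_self_nonneg _⟩
    obtain ⟨z, hzK, hzmax⟩ := (hcomp x).exists_isMaxOn ⟨x, hxK⟩ hcont.continuousOn
    have h1 : eval x h - ∑ i, a i * x i ≤ eval z h - ∑ i, a i * z i := hzmax hxK
    have h2 := abs_le.1 (hlin x (hρ x hx).le)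
    have h3 := abs_le.1 (hlin z hzK.1)
    have h4 : δ ≤ eval x h := hmin x hx
    have h5 : 0 < eval z h := by linarith [h2.1, h2.2, h3.1, h3.2]
    have h6 : (∏ j, eval z (g j)) ^ 2 * (ρ ^ 2 - ∑ i, z i ^ 2) = eval z h := (eval_aux g ρ z).symm
    have h7 : ∏ j, eval z (g j) ≠ 0 := by
      intro h0
      rw [h0] at h6
      simp at h6
      linarith
    have h8 : 0 < ρ ^ 2 - ∑ i, z i ^ 2 := by
      by_contra hcon
      have h9 : (∏ j, eval z (g j)) ^ 2 * (ρ ^ 2 - ∑ i, z i ^ 2) ≤ 0 :=
        mul_nonpos_of_nonneg_of_nonpos (sq_nonneg _) (not_lt.1 hcon)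
      linarith
    have h10 : ∀ j, 0 < eval x (g j) * eval z (g j) := by
      intro j
      refine lt_of_le_of_ne (hzK.2 j) (Ne.symm ?_)
      exact mul_ne_zero (hT x hx j) ((Finset.prod_ne_zero_iff.1 h7) j (mem_univ j))
    refine ⟨z, ?_, h10⟩
    -- an interior maximum
    have hopen : ∀ᶠ y in 𝓝 z, y ∈ Kx x := by
      have o1 : ∀ᶠ y in 𝓝 z, ∑ i, y i ^ 2 < ρ ^ 2 := by
        have : Continuous fun y : Fin k → ℝ => ∑ i, y i ^ 2 :=
          continuous_finset_sum _ fun i _ => (continuous_apply i).pow 2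
        exact (this.tendsto z).eventually_lt_const (by linarith)
      have o2 : ∀ᶠ y in 𝓝 z, ∀ j, 0 < eval x (g j) * eval y (g j) := by
        rw [Filter.eventually_all]
        intro j
        have : Continuous fun y : Fin k → ℝ => eval x (g j) * eval y (g j) :=
          continuous_const.mul (continuous_eval_mv _)
        exact (this.tendsto z).eventually_const_lt (h10 j)
      filter_upwards [o1, o2] with y hy1 hy2
      exact ⟨hy1.le, fun j => (hy2 j).le⟩
    have hloc : IsLocalMax (fun y : Fin k → ℝ => eval y h - ∑ i, a i * y i) z := by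
      filter_upwards [hopen] with y hy
      exact hzmax hy
    have hfd : HasFDerivAt (fun y : Fin k → ℝ => eval y h - ∑ i, a i * y i)
        (dev h z - ∑ i, a i • ContinuousLinearMap.proj (R := ℝ) (φ := fun _ : Fin k => ℝ) i) z := by
      refine (hasFDerivAt_eval h z).sub ?_
      have h11 : (fun y : Fin k → ℝ => ∑ i, a i * y i) =
          ⇑(∑ i, a i • ContinuousLinearMap.proj (R := ℝ) (φ := fun _ : Fin k => ℝ) i) := by
        funext y
        simp [ContinuousLinearMap.sum_apply]
      rw [h11]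
      exact ContinuousLinearMap.hasFDerivAt _
    have h12 := hloc.hasFDerivAt_eq_zero hfd
    funext i
    have h13 := congrArg (fun L : (Fin k → ℝ) →L[ℝ] ℝ => L (Pi.single i 1)) h12
    simp only [ContinuousLinearMap.sub_apply, dev_single, ContinuousLinearMap.sum_apply,
      ContinuousLinearMap.smul_apply, ContinuousLinearMap.proj_apply, smul_eq_mul,
      ContinuousLinearMap.zero_apply] at h13
    rw [Finset.sum_eq_single i] at h13
    · rw [Pi.single_eq_same, mul_one] at h13
      show eval z (pderiv i h) = a i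
      linarith
    · intro j _ hj
      rw [Pi.single_eq_of_ne hj, mul_zero]
    · intro hi; exact absurd (mem_univ _) hi
  choose! w hw hws using key
  refine ⟨h, aux_degree g ρ, a, T.image w, ?_, ?_⟩
  · rw [Finset.card_image_of_injOn]
    intro x hx y hy hxy
    refine hinj x hx y hy ?_
    funext j
    have e1 := hws x hx j
    have e2 := hws y hy j
    have hxy' : w x = w y := hxy
    rw [← hxy'] at e2
    unfold sgn
    rw [decide_eq_decide]
    constructor
    · intro e3
      have e4 : 0 < eval (w x) (g j) := (pos_iff_pos_of_mul_pos e1).1 e3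
      exact (pos_iff_pos_of_mul_pos e2).2 e4
    · intro e3
      have e4 : 0 < eval (w x) (g j) := (pos_iff_pos_of_mul_pos e2).1 e3
      exact (pos_iff_pos_of_mul_pos e1).2 e4
  · intro z hz
    obtain ⟨x, hx, rfl⟩ := mem_image.1 hz
    exact ⟨hw x hx, hreg _ (hw x hx)⟩

end Vale.Agent.P054.T3.H398
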