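import Vale.Agent.P054.T3.H398.PSCore

set_option autoImplicit false
set_option linter.all false

/-!
# P054 / T3 / H398: the losses `β^(c h + C)` are smaller than every power of `t`
-/

namespace Vale.Agent.P054.T3.H398

/-- `β^(a h) ≤ Λ t^(ε/4)` if `(β^L)^h ≤ Λ t` and `L ≥ 4 a / ε` -/
theorem theta_small {a L h t Λ β : ℕ} {ε : ℝ} (hε : 0 < ε) (hL1 : 1 ≤ L) (haL : a ≤ L)
    (hL : 4 * a / ε ≤ L) (ht : 1 ≤ t) (hΛ : 1 ≤ Λ) (h1 : (β ^ L) ^ h ≤ Λ * t) :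
    (β : ℝ) ^ (a * h) ≤ Λ * (t : ℝ) ^ (ε / 4) := by
  have hL0 : (0 : ℝ) < L := by exact_mod_cast hL1
  have ht1 : (1 : ℝ) ≤ t := by exact_mod_cast ht
  have hΛ1 : (1 : ℝ) ≤ Λ := by exact_mod_cast hΛ
  set x : ℝ := (β : ℝ) ^ (a * h) with hx
  have hx0 : 0 ≤ x := by positivity
  have h2 : x ^ L ≤ ((Λ : ℝ) * t) ^ a := by
    have h3 : ((β : ℝ) ^ L) ^ h ≤ (Λ : ℝ) * t := by exact_mod_cast h1
    calc x ^ L = (((β : ℝ) ^ L) ^ h) ^ a := by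
          rw [hx, ← pow_mul, ← pow_mul, ← pow_mul]; congr 1; ring
      _ ≤ ((Λ : ℝ) * t) ^ a := by gcongr
  have h4 : x = (x ^ L) ^ ((1 : ℝ) / L) := by
    rw [← Real.rpow_natCast, ← Real.rpow_mul hx0, mul_one_div_cancel hL0.ne', Real.rpow_one]
  have haL' : (a : ℝ) / L ≤ 1 := by
    rw [div_le_one hL0]; exact_mod_cast haL
  have haε : (a : ℝ) / L ≤ ε / 4 := by
    rw [div_le_iff₀ hε] at hL
    rw [div_le_div_iff₀ hL0 (by norm_num)]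
    linarith
  calc x = (x ^ L) ^ ((1 : ℝ) / L) := h4
    _ ≤ (((Λ : ℝ) * t) ^ a) ^ ((1 : ℝ) / L) := by gcongr
    _ = ((Λ : ℝ) * t) ^ ((a : ℝ) / L) := by
        rw [← Real.rpow_natCast, ← Real.rpow_mul (by positivity)]
        congr 1; ring
    _ = (Λ : ℝ) ^ ((a : ℝ) / L) * (t : ℝ) ^ ((a : ℝ) / L) :=
        Real.mul_rpow (by positivity) (by positivity)
    _ ≤ (Λ : ℝ) ^ (1 : ℝ) * (t : ℝ) ^ (ε / 4) := by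
        have e1 : (Λ : ℝ) ^ ((a : ℝ) / L) ≤ (Λ : ℝ) ^ (1 : ℝ) :=
          Real.rpow_le_rpow_of_exponent_le hΛ1 haL'
        have e2 : (t : ℝ) ^ ((a : ℝ) / L) ≤ (t : ℝ) ^ (ε / 4) :=
          Real.rpow_le_rpow_of_exponent_le ht1 haε
        gcongr
    _ = _ := by rw [Real.rpow_one]

/-- constants are smaller than powers of `t` -/
theorem const_small (C ε : ℝ) (hε : 0 < ε) : ∃ t₀ : ℕ, ∀ t : ℕ, t₀ ≤ t → C ≤ (t : ℝ) ^ ε := by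
  have h1 := (tendsto_rpow_atTop hε).comp tendsto_natCast_atTop_atTop
  have h2 := h1.eventually_ge_atTop C
  rw [Filter.eventually_atTop] at h2
  exact h2

/-- the condition of `flats_core` for all `h` -/
theorem theta_cond (n Cf c₀ c₂ L Λ β : ℕ) {ε : ℝ} (hε : 0 < ε) (hL1 : 1 ≤ L)
    (haL : 4 * (n + 1) * c₀ ≤ L) (hL : 4 * ((4 * (n + 1) * c₀ : ℕ) : ℝ) / ε ≤ L) (hΛ : 1 ≤ Λ) :
    ∃ t₀ : ℕ, ∀ t : ℕ, t₀ ≤ t → 1 ≤ t → ∀ h : ℕ, (β ^ L) ^ h ≤ Λ * t →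
      2 * ((Cl n Cf * β ^ (c₀ * h + c₂) : ℕ) : ℝ) ^ (4 * (n + 1)) ≤ (t : ℝ) ^ (ε / 2) := by
  obtain ⟨t₀, ht₀⟩ := const_small
    (2 * ((Cl n Cf * β ^ c₂ : ℕ) : ℝ) ^ (4 * (n + 1)) * Λ) (ε / 4) (by positivity)
  refine ⟨t₀, fun t ht ht1 h hh => ?_⟩
  have h1 := theta_small (a := 4 * (n + 1) * c₀) hε hL1 haL hL ht1 hΛ hh
  have h2 := ht₀ t ht
  have ht0 : (0 : ℝ) < t := by exact_mod_cast ht1
  have e1 : ((Cl n Cf * β ^ (c₀ * h + c₂) : ℕ) : ℝ) ^ (4 * (n + 1)) =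
      ((Cl n Cf * β ^ c₂ : ℕ) : ℝ) ^ (4 * (n + 1)) * (β : ℝ) ^ (4 * (n + 1) * c₀ * h) := by
    have e2 : (β : ℝ) ^ (4 * (n + 1) * c₀ * h) = ((β : ℝ) ^ (c₀ * h)) ^ (4 * (n + 1)) := by
      rw [← pow_mul]; congr 1; ring
    rw [e2, ← mul_pow]
    congr 1
    push_cast
    rw [pow_add]
    ring
  rw [e1]
  calc 2 * (((Cl n Cf * β ^ c₂ : ℕ) : ℝ) ^ (4 * (n + 1)) * (β : ℝ) ^ (4 * (n + 1) * c₀ * h))
      ≤ 2 * (((Cl n Cf * β ^ c₂ : ℕ) : ℝ) ^ (4 * (n + 1)) * (Λ * (t : ℝ) ^ (ε / 4))) := by gcongr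
    _ = (2 * ((Cl n Cf * β ^ c₂ : ℕ) : ℝ) ^ (4 * (n + 1)) * Λ) * (t : ℝ) ^ (ε / 4) := by ring
    _ ≤ (t : ℝ) ^ (ε / 4) * (t : ℝ) ^ (ε / 4) := by gcongr
    _ = (t : ℝ) ^ (ε / 2) := by rw [← Real.rpow_add ht0]; congr 1; ring

end Vale.Agent.P054.T3.H398
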