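import Vale.Agent.P054.T3.H398.PSNum
import Mathlib.Analysis.InnerProductSpace.PiL2

set_option autoImplicit false
set_option linter.all false

/-!
# P054 / T3 / H398: the planar block for `n ≥ 3`, choice of the level
-/

namespace Vale.Agent.P054.T3.H398

open Finset MvPolynomial Module
open Vale.Agent.P054.T3.H109.Gen (onL lineC)

/-- `R^(n+1)` -/
abbrev EE (n : ℕ) : Type := EuclideanSpace ℝ (Fin (n + 1))

/-- the coordinates of a pair of points -/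
noncomputable def phiE (n : ℕ) : ((EE n) × (EE n)) →ₗ[ℝ] (Fin (n + 1) ⊕ Fin (n + 1) → ℝ) where
  toFun s := Sum.elim (fun i => s.1 i) (fun i => s.2 i)
  map_add' s r := by
    funext i
    rcases i with i | i <;> simp
  map_smul' a s := by
    funext i
    rcases i with i | i <;> simp

theorem phiE_apply {n : ℕ} (s : (EE n) × (EE n)) :
    phiE n s = Sum.elim (fun i => s.1 i) (fun i => s.2 i) := rfl

/-- the constant of the level -/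
def Cl (n Cf : ℕ) : ℕ := 16 * Cf * Kp (2 * (n + 1)) * (2 * (2 * (n + 1)) ^ 2)

theorem kST_pos : 1 ≤ H691.kST := by unfold H691.kST; norm_num

theorem Kp_pos (d : ℕ) : 1 ≤ Kp d := by
  unfold Kp
  have h1 := kST_pos
  have h2 : 1 ≤ (2 * (2 * d ^ 2 + 2)) ^ 2 + 1 := by omega
  have h3 := Nat.mul_le_mul (Nat.mul_le_mul (show 1 ≤ 32 by norm_num) h1) h2
  simpa using h3

/-- choice of a power of two -/
theorem exists_two_pow {a : ℕ} (ha : 1 ≤ a) : ∃ m : ℕ, a ≤ 2 ^ m ∧ 2 ^ m ≤ 2 * a := by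
  refine ⟨Nat.clog 2 a, Nat.le_pow_clog (by norm_num) _, ?_⟩
  rcases Nat.lt_or_ge 1 a with h | h
  · have h1 := Nat.pow_pred_clog_lt_self (b := 2) (by norm_num) h
    have h2 : 1 ≤ Nat.clog 2 a := Nat.clog_pos (by norm_num) h
    obtain ⟨k, hk⟩ : ∃ k, Nat.clog 2 a = k + 1 := ⟨_, (Nat.sub_add_cancel h2).symm⟩
    rw [hk] at h1 ⊢
    simp only [Nat.pred_succ] at h1
    rw [pow_succ]
    omega
  · have : a = 1 := le_antisymm h ha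
    subst this
    simp

/-- **the planar block, level chosen from `Θ`** -/
theorem flats_core {n : ℕ} (hn : 3 ≤ n) {Cf : ℕ} (hCf : 1 ≤ Cf) {ε₁ η : ℝ} (hε : 0 < ε₁)
    (hε1 : ε₁ ≤ 1) (hεη : ε₁ ≤ η) {t : ℕ} (ht : 1 ≤ t) (adj : ((EE n) × (EE n)) → ((EE n) × (EE n)) → Prop)
    {P : Finset (EE n)} {S : Finset ((EE n) × (EE n))} (hSP : S ⊆ P ×ˢ P)
    (hP : (t : ℝ) ^ (((n + 1 : ℕ) : ℝ) / 2) ≤ P.card)
    (hz : (t : ℝ) ^ (-(ε₁ / 2)) * (P.card : ℝ) ^ 2 ≤ S.card)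
    (hext : ∀ T ⊆ S, (t : ℝ) ^ (-ε₁) * (P.card : ℝ) ^ 2 ≤ T.card →
      (H190.W adj T : ℝ) * (S.card : ℝ) ^ (7 / 5 : ℝ) ≤ H190.W adj S * (T.card : ℝ) ^ (7 / 5 : ℝ))
    (hyp : ∀ {J : Type} [Fintype J] (f : J → MvPolynomial (Fin (n + 1) ⊕ Fin (n + 1)) ℝ),
        (∀ j, f j ≠ 0) → ((∑ j, (f j).totalDegree : ℕ) : ℝ) ≤ (t : ℝ) ^ η →
        ∀ Z ⊆ P ×ˢ P, (∀ s ∈ Z, ∃ j, MvPolynomial.eval (Sum.elim s.1 s.2) (f j) = 0) →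
          (Z.card : ℝ) ≤ (P.card : ℝ) ^ (2 - η))
    {Θ : ℕ} (hΘ : 1 ≤ Θ) (hΘt : 2 * ((Cl n Cf * Θ : ℕ) : ℝ) ^ (4 * (n + 1)) ≤ (t : ℝ) ^ (ε₁ / 2)) :
    ∃ m : ℕ, 2 ^ m ≤ Cl n Cf * Θ ∧
      ∀ {κ : Type} (𝓕 : Finset κ) (SF : κ → Finset ((EE n) × (EE n))), (∀ F ∈ 𝓕, SF F ⊆ S) →
        (∀ F ∈ 𝓕, ∀ s ∈ SF F, ∀ r ∈ SF F, s ≠ r → adj s r) →
        (∀ F ∈ 𝓕, finrank ℝ (vectorSpan ℝ (SF F : Set ((EE n) × (EE n)))) ≤ 2) →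
        ∀ (mu L : ℕ), (∀ F ∈ 𝓕, ∀ p ∈ (SF F).offDiag, lineC (SF F) p.1 p.2 ≤ L) →
        (∀ F ∈ 𝓕, 8 * kp (2 * (n + 1)) m * (16 * L + 1 + H691.kST * mu) ≤ (SF F).card) →
        (∀ F ∈ 𝓕, ∀ s ∈ SF F, ∃ U : Finset (Submodule ℝ ((EE n) × (EE n))), U.card ≤ mu ∧
          ∀ F' ∈ 𝓕, F' ≠ F → s ∈ SF F' → H691.dirs (SF F) s ∩ H691.dirs (SF F') s ⊆ U) →
        8 * Cf * Θ * ∑ F ∈ 𝓕, (SF F).card ^ 2 ≤ H190.W adj S := by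
  classical
  set K := Kp (2 * (n + 1)) with hK
  have hK1 : 1 ≤ K := Kp_pos _
  have ha : 1 ≤ 8 * Cf * K * Θ := by
    have := Nat.mul_le_mul (Nat.mul_le_mul (Nat.mul_le_mul (show 1 ≤ 8 by norm_num) hCf) hK1) hΘ
    simpa using this
  obtain ⟨m, hm1, hm2⟩ := exists_two_pow ha
  have hCl : Cl n Cf * Θ = 2 * (8 * Cf * K * Θ) * (2 * (2 * (n + 1)) ^ 2) := by
    unfold Cl; ring
  have h1le : 1 ≤ 2 * (2 * (n + 1)) ^ 2 := by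
    have : 1 ≤ (2 * (n + 1)) ^ 2 := Nat.one_le_pow _ _ (by omega)
    omega
  have hm3 : 2 ^ m * (2 * (2 * (n + 1)) ^ 2) ≤ Cl n Cf * Θ := by
    rw [hCl]; exact Nat.mul_le_mul_right _ hm2
  have hm4 : 2 ^ m ≤ Cl n Cf * Θ := le_trans (Nat.le_mul_of_pos_right _ h1le) hm3
  refine ⟨m, hm4, ?_⟩
  intro κ 𝓕 SF hS hadj hrk mu L hL hbig hM
  -- numbers
  have ht0 : (0 : ℝ) < t := by exact_mod_cast ht
  have ht1 : (1 : ℝ) ≤ t := by exact_mod_cast ht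
  have hcard : Fintype.card (Fin (n + 1) ⊕ Fin (n + 1)) = 2 * (n + 1) := by
    rw [Fintype.card_sum, Fintype.card_fin]; ring
  set A : ℝ := ((Cl n Cf * Θ : ℕ) : ℝ) with hA
  have hA2 : (2 : ℝ) ^ m ≤ A := by rw [hA]; exact_mod_cast hm4
  have hA1 : 1 ≤ A := le_trans (one_le_pow₀ (by norm_num)) hA2
  set δ : ℝ := ((4 : ℝ) ^ (2 * (n + 1) * m))⁻¹ with hδ
  have hδ0 : 0 < δ := by rw [hδ]; positivity
  have h4 : (4 : ℝ) ^ (2 * (n + 1) * m) = ((2 : ℝ) ^ m) ^ (4 * (n + 1)) := by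
    rw [show (4 : ℝ) = 2 ^ 2 by norm_num, ← pow_mul, ← pow_mul]; congr 1; ring
  have hδA : δ⁻¹ ≤ A ^ (4 * (n + 1)) := by
    rw [hδ, inv_inv, h4]; gcongr
  have hδt : 2 * δ⁻¹ ≤ (t : ℝ) ^ (ε₁ / 2) := le_trans (by gcongr) hΘt
  have hp0 : (0 : ℝ) ≤ P.card := Nat.cast_nonneg _
  have hp1 : (t : ℝ) ≤ P.card := by
    refine le_trans ?_ hP
    calc (t : ℝ) = (t : ℝ) ^ (1 : ℝ) := (Real.rpow_one _).symm
      _ ≤ (t : ℝ) ^ (((n + 1 : ℕ) : ℝ) / 2) := by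
        apply Real.rpow_le_rpow_of_exponent_le ht1
        have : (3 : ℝ) ≤ n := by exact_mod_cast hn
        push_cast
        linarith
  have hp2 : (0 : ℝ) < P.card := lt_of_lt_of_le ht0 hp1
  -- `z₀ + 1 ≤ δ |S|`
  have hz1 : (t : ℝ) ^ (-ε₁) * (P.card : ℝ) ^ 2 + 1 ≤ δ * S.card := by
    have e2 : (t : ℝ) ^ (-(ε₁ / 2)) = (t : ℝ) ^ (-ε₁) * (t : ℝ) ^ (ε₁ / 2) := by
      rw [← Real.rpow_add ht0]; congr 1; ring
    have e3 : δ * ((t : ℝ) ^ (-(ε₁ / 2)) * (P.card : ℝ) ^ 2) ≤ δ * S.card := by gcongr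
    have e4 : 2 * ((t : ℝ) ^ (-ε₁) * (P.card : ℝ) ^ 2) ≤
        δ * ((t : ℝ) ^ (-(ε₁ / 2)) * (P.card : ℝ) ^ 2) := by
      rw [e2]
      have e5 : 2 ≤ δ * (t : ℝ) ^ (ε₁ / 2) := by
        have := mul_le_mul_of_nonneg_left hδt hδ0.le
        rw [mul_left_comm, mul_inv_cancel₀ hδ0.ne', mul_one] at this
        exact this
      have e6 : 0 ≤ (t : ℝ) ^ (-ε₁) * (P.card : ℝ) ^ 2 := by positivity
      calc 2 * ((t : ℝ) ^ (-ε₁) * (P.card : ℝ) ^ 2)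
          ≤ (δ * (t : ℝ) ^ (ε₁ / 2)) * ((t : ℝ) ^ (-ε₁) * (P.card : ℝ) ^ 2) := by gcongr
        _ = _ := by ring
    -- `1 ≤ z₀`
    have e7 : (1 : ℝ) ≤ (t : ℝ) ^ (-ε₁) * (P.card : ℝ) ^ 2 := by
      have e8 : (t : ℝ) ^ (-ε₁) * (t : ℝ) ^ (2 : ℝ) ≤ (t : ℝ) ^ (-ε₁) * (P.card : ℝ) ^ 2 := by
        have : (t : ℝ) ^ (2 : ℝ) ≤ (P.card : ℝ) ^ 2 := by
          rw [show (2 : ℝ) = ((2 : ℕ) : ℝ) by norm_num, Real.rpow_natCast]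
          gcongr
        gcongr
      refine le_trans ?_ e8
      rw [← Real.rpow_add ht0]
      exact Real.one_le_rpow ht1 (by linarith)
    linarith
  -- the zero class
  have hzero : ∀ f : Fin (Fintype.card (Fin (n + 1) ⊕ Fin (n + 1)) * m) →
      MvPolynomial (Fin (n + 1) ⊕ Fin (n + 1)) ℝ, (∀ j, f j ≠ 0) →
      ∑ j, (f j).totalDegree ≤ 2 * Fintype.card (Fin (n + 1) ⊕ Fin (n + 1)) ^ 2 * 2 ^ m →
      ∀ Z ⊆ S, (∀ s ∈ Z, ∃ j, eval (phiE n s) (f j) = 0) → (Z.card : ℝ) ≤ δ * S.card := by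
    intro f hf hfd Z hZS hZ
    have htε : (1 : ℝ) ≤ (t : ℝ) ^ (ε₁ / 2) := Real.one_le_rpow ht1 (by linarith)
    have hAt : A ≤ (t : ℝ) ^ η := by
      have e1 : A ≤ A ^ (4 * (n + 1)) := le_self_pow₀ hA1 (by omega)
      have e2 : A ^ (4 * (n + 1)) ≤ (t : ℝ) ^ (ε₁ / 2) := by
        have e3 : 0 ≤ A ^ (4 * (n + 1)) := pow_nonneg (by linarith) _
        have e4 : 2 * A ^ (4 * (n + 1)) ≤ (t : ℝ) ^ (ε₁ / 2) := hΘt
        linarith only [e3, e4]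
      have e4 : (t : ℝ) ^ (ε₁ / 2) ≤ (t : ℝ) ^ η :=
        Real.rpow_le_rpow_of_exponent_le ht1 (by linarith)
      linarith
    have hdeg : ((∑ j, (f j).totalDegree : ℕ) : ℝ) ≤ (t : ℝ) ^ η := by
      refine le_trans ?_ hAt
      rw [hA]
      refine Nat.cast_le.2 (hfd.trans ?_)
      rw [hcard, mul_comm (2 * (2 * (n + 1)) ^ 2)]
      exact hm3
    have h1 := hyp f hf hdeg Z (hZS.trans hSP) (by
      intro s hs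
      obtain ⟨j, hj⟩ := hZ s hs
      exact ⟨j, by rw [← hj, phiE_apply]⟩)
    refine h1.trans ?_
    have e1 : δ * ((t : ℝ) ^ (-(ε₁ / 2)) * (P.card : ℝ) ^ 2) ≤ δ * S.card := by gcongr
    refine le_trans ?_ e1
    -- `p^(2-η) ≤ δ t^(-ε₁/2) p²`
    have e2 : (P.card : ℝ) ^ (2 - η) = (P.card : ℝ) ^ (-η) * (P.card : ℝ) ^ 2 := by
      rw [show (2 - η) = -η + ((2 : ℕ) : ℝ) by push_cast; ring, Real.rpow_add hp2,
        Real.rpow_natCast]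
    have e3 : (P.card : ℝ) ^ (-η) ≤ (t : ℝ) ^ (-η) := by
      rw [Real.rpow_neg hp0, Real.rpow_neg ht0.le]
      exact inv_anti₀ (Real.rpow_pos_of_pos ht0 _)
        (Real.rpow_le_rpow ht0.le hp1 (by linarith))
    have e4 : (t : ℝ) ^ (-η) ≤ δ * (t : ℝ) ^ (-(ε₁ / 2)) := by
      have e5 : (t : ℝ) ^ (-(ε₁ / 2)) ≤ δ := by
        have e6 : δ⁻¹ ≤ (t : ℝ) ^ (ε₁ / 2) := by
          have : 0 < δ⁻¹ := inv_pos.2 hδ0
          linarith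
        rw [Real.rpow_neg ht0.le]
        exact inv_le_of_inv_le₀ hδ0 e6
      calc (t : ℝ) ^ (-η) ≤ (t : ℝ) ^ (-(ε₁ / 2) + -(ε₁ / 2)) :=
            Real.rpow_le_rpow_of_exponent_le ht1 (by linarith)
        _ = (t : ℝ) ^ (-(ε₁ / 2)) * (t : ℝ) ^ (-(ε₁ / 2)) := Real.rpow_add ht0 _ _
        _ ≤ δ * (t : ℝ) ^ (-(ε₁ / 2)) := by gcongr
    rw [e2]
    calc (P.card : ℝ) ^ (-η) * (P.card : ℝ) ^ 2 ≤ (t : ℝ) ^ (-η) * (P.card : ℝ) ^ 2 := by gcongr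
      _ ≤ (δ * (t : ℝ) ^ (-(ε₁ / 2))) * (P.card : ℝ) ^ 2 := by gcongr
      _ = _ := by ring
  obtain ⟨cl, hcl⟩ := sum_planes_le (phiE n) (by rw [hcard]; omega) m adj S hext hδ0
    (by rw [hcard, hδ, inv_mul_cancel₀ (by positivity)]) hz1 hzero 𝓕
  have hmain := hcl SF hS hadj hrk mu L hL (by rw [hcard]; exact hbig) hM
  rw [hcard] at hmain
  have hfin : (8 * Cf * Θ : ℝ) * ((∑ F ∈ 𝓕, (SF F).card ^ 2 : ℕ) : ℝ) ≤ H190.W adj S := by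
    have hW : (0 : ℝ) ≤ H190.W adj S := Nat.cast_nonneg _
    have e1 : (8 * Cf * Θ : ℝ) * (K * ((2 : ℝ) ^ m)⁻¹) ≤ 1 := by
      have e2 : (8 * Cf * K * Θ : ℝ) ≤ (2 : ℝ) ^ m := by exact_mod_cast hm1
      rw [← mul_assoc, ← div_eq_mul_inv, div_le_one (by positivity)]
      calc (8 * Cf * Θ : ℝ) * K = 8 * Cf * K * Θ := by ring
        _ ≤ _ := e2
    calc (8 * Cf * Θ : ℝ) * ((∑ F ∈ 𝓕, (SF F).card ^ 2 : ℕ) : ℝ)
        ≤ (8 * Cf * Θ : ℝ) * (K * ((2 : ℝ) ^ m)⁻¹ * H190.W adj S) := by gcongr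
      _ = (8 * Cf * Θ : ℝ) * (K * ((2 : ℝ) ^ m)⁻¹) * H190.W adj S := by ring
      _ ≤ 1 * H190.W adj S := by gcongr
      _ = _ := one_mul _
  exact_mod_cast hfin

end Vale.Agent.P054.T3.H398
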