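import Vale.Agent.P054.T3.H398.CellsW
import Vale.Agent.P054.T3.H691.CntW
import Vale.Agent.P054.T3.H190.Flag

set_option autoImplicit false
set_option linter.all false

/-!
# P054 / T3 / H398: the planar block in numbers

Isotropic planes of `R^(n+1) × R^(n+1)`, `n ≥ 3`, and an extremal vertex set `S` (functional `W / |S|^(7/5)`):
if the planes `F` carry big sets `SF F ⊆ S`, with few shared lines, then
`∑ |SF F|² ≤ C 2^(-m) W(S)`, `m` the level of the cell decomposition.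
-/

namespace Vale.Agent.P054.T3.H398

open Finset MvPolynomial Module
open Vale.Agent.P054.T3.H109.Gen (onL lineC)

variable {V : Type*} [AddCommGroup V] [Module ℝ V]

theorem W_eq (adj : V → V → Prop) (S : Finset V) : H190.W adj S = H691.W adj S := by
  rw [H190.W_eq_sum]
  rfl

/-- number of classes met by a plane -/
def kp (d m : ℕ) : ℕ := (2 * (2 * d ^ 2 * 2 ^ m + 2)) ^ 2 + 1

theorem kp_le (d m : ℕ) : kp d m ≤ ((2 * (2 * d ^ 2 + 2)) ^ 2 + 1) * 4 ^ m := by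
  have h := kap_le 2 d m
  have h2 : (2 ^ m) ^ 2 = 4 ^ m := by rw [← pow_mul, mul_comm, pow_mul]; norm_num
  rw [h2] at h
  exact h

/-- the constant of the gain -/
def Kp (d : ℕ) : ℕ := 32 * H691.kST * ((2 * (2 * d ^ 2 + 2)) ^ 2 + 1)

theorem gain_le {d m : ℕ} (hd : 8 ≤ d) :
    (8 * H691.kST * kp d m : ℝ) * (4 * (2 : ℝ) ^ (-((d * m : ℕ) : ℝ) * (7 / 5 - 1))) ≤
      Kp d * ((2 : ℝ) ^ m)⁻¹ := by
  have h1 : (kp d m : ℝ) ≤ ((2 * (2 * d ^ 2 + 2)) ^ 2 + 1 : ℕ) * (4 : ℝ) ^ m := by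
    exact_mod_cast kp_le d m
  have h2 : (4 : ℝ) ^ m * (2 : ℝ) ^ (-((d * m : ℕ) : ℝ) * (7 / 5 - 1)) ≤ ((2 : ℝ) ^ m)⁻¹ := by
    have e1 : (4 : ℝ) ^ m = (2 : ℝ) ^ (2 * (m : ℝ)) := by
      rw [Real.rpow_mul (by norm_num), Real.rpow_natCast]
      norm_num
    have e2 : ((2 : ℝ) ^ m)⁻¹ = (2 : ℝ) ^ (-(m : ℝ)) := by
      rw [Real.rpow_neg (by norm_num), Real.rpow_natCast]
    rw [e1, e2, ← Real.rpow_add (by norm_num)]
    apply Real.rpow_le_rpow_of_exponent_le (by norm_num)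
    have h3 : (8 : ℝ) ≤ d := by exact_mod_cast hd
    have h4 : (0 : ℝ) ≤ m := Nat.cast_nonneg _
    push_cast
    nlinarith
  have h5 : (0 : ℝ) ≤ (2 : ℝ) ^ (-((d * m : ℕ) : ℝ) * (7 / 5 - 1)) := by positivity
  calc (8 * H691.kST * kp d m : ℝ) * (4 * (2 : ℝ) ^ (-((d * m : ℕ) : ℝ) * (7 / 5 - 1)))
      ≤ (8 * H691.kST * (((2 * (2 * d ^ 2 + 2)) ^ 2 + 1 : ℕ) * (4 : ℝ) ^ m)) *
        (4 * (2 : ℝ) ^ (-((d * m : ℕ) : ℝ) * (7 / 5 - 1))) := by gcongr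
    _ = (32 * H691.kST * ((2 * (2 * d ^ 2 + 2)) ^ 2 + 1 : ℕ)) *
        ((4 : ℝ) ^ m * (2 : ℝ) ^ (-((d * m : ℕ) : ℝ) * (7 / 5 - 1))) := by ring
    _ ≤ (32 * H691.kST * ((2 * (2 * d ^ 2 + 2)) ^ 2 + 1 : ℕ)) * ((2 : ℝ) ^ m)⁻¹ := by gcongr
    _ = _ := by unfold Kp; push_cast; ring

open scoped Classical in
/-- **the planar block in numbers** -/
theorem sum_planes_le {σ : Type*} [Fintype σ] [FiniteDimensional ℝ V] (φ : V →ₗ[ℝ] (σ → ℝ))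
    (hσ : 8 ≤ Fintype.card σ) (m : ℕ) (adj : V → V → Prop) (S : Finset V) {z₀ : ℝ}
    (hext : ∀ T ⊆ S, z₀ ≤ T.card →
      (H190.W adj T : ℝ) * (S.card : ℝ) ^ (7 / 5 : ℝ) ≤ H190.W adj S * (T.card : ℝ) ^ (7 / 5 : ℝ))
    {δ : ℝ} (hδ0 : 0 < δ) (hδ : δ * 4 ^ (Fintype.card σ * m) ≤ 1) (hz : z₀ + 1 ≤ δ * S.card)
    (hzero : ∀ f : Fin (Fintype.card σ * m) → MvPolynomial σ ℝ, (∀ j, f j ≠ 0) →
      ∑ j, (f j).totalDegree ≤ 2 * Fintype.card σ ^ 2 * 2 ^ m →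
      ∀ Z ⊆ S, (∀ s ∈ Z, ∃ j, eval (φ s) (f j) = 0) → (Z.card : ℝ) ≤ δ * S.card)
    {κ : Type*} (𝓕 : Finset κ) :
    ∃ cl : V → Option (Fin (Fintype.card σ * m) → Bool),
      ∀ (SF : κ → Finset V), (∀ F ∈ 𝓕, SF F ⊆ S) →
      (∀ F ∈ 𝓕, ∀ s ∈ SF F, ∀ r ∈ SF F, s ≠ r → adj s r) →
      (∀ F ∈ 𝓕, finrank ℝ (vectorSpan ℝ (SF F : Set V)) ≤ 2) →
      ∀ (mu L : ℕ), (∀ F ∈ 𝓕, ∀ p ∈ (SF F).offDiag, lineC (SF F) p.1 p.2 ≤ L) →
      (∀ F ∈ 𝓕, 8 * kp (Fintype.card σ) m * (16 * L + 1 + H691.kST * mu) ≤ (SF F).card) →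
      (∀ F ∈ 𝓕, ∀ s ∈ SF F, ∃ U : Finset (Submodule ℝ V), U.card ≤ mu ∧
        ∀ F' ∈ 𝓕, F' ≠ F → s ∈ SF F' → H691.dirs (SF F) s ∩ H691.dirs (SF F') s ⊆ U) →
      ((∑ F ∈ 𝓕, (SF F).card ^ 2 : ℕ) : ℝ) ≤
        Kp (Fintype.card σ) * ((2 : ℝ) ^ m)⁻¹ * H190.W adj S := by
  obtain ⟨cl, hcl, hsum⟩ := cells_W φ 2 m (θ := 7 / 5) (by norm_num) (by norm_num) (by omega) S
    (fun T => (H190.W adj T : ℝ)) (fun T T' h _ => by exact_mod_cast H190.W_mono h)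
    (Nat.cast_nonneg _) hext hδ0 hδ hz hzero
  refine ⟨cl, ?_⟩
  intro SF hS hadj hrk mu L hL hbig hM
  have h1 := H691.cntW 𝓕 SF S hS adj hadj cl (kp (Fintype.card σ) m) ?_ mu L hL hbig hM
  swap
  · intro F hF
    have h := hcl (SF F) (hS F hF) (hrk F hF)
    unfold kp
    convert h using 2
    ext c
    simp only [mem_image]
  have h2 : ((∑ F ∈ 𝓕, (SF F).card ^ 2 : ℕ) : ℝ) ≤ 8 * H691.kST * kp (Fintype.card σ) m *
      ∑ c ∈ S.image cl, (H190.W adj (S.filter fun r => cl r = c) : ℝ) := by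
    have h3 : ((∑ F ∈ 𝓕, (SF F).card ^ 2 : ℕ) : ℝ) ≤ ((8 * H691.kST * kp (Fintype.card σ) m *
      ∑ c ∈ S.image cl, H691.W adj (S.filter fun r => cl r = c) : ℕ) : ℝ) := by
      refine Nat.cast_le.2 ?_
      convert h1 using 3
      · ext c
        simp only [mem_image]
      · congr 1
        ext v
        simp only [mem_filter]
    push_cast at h3
    simp only [W_eq]
    exact_mod_cast h3
  have h3 := gain_le (d := Fintype.card σ) (m := m) hσ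
  have hW : (0 : ℝ) ≤ H190.W adj S := Nat.cast_nonneg _
  calc ((∑ F ∈ 𝓕, (SF F).card ^ 2 : ℕ) : ℝ)
      ≤ 8 * H691.kST * kp (Fintype.card σ) m *
        ∑ c ∈ S.image cl, (H190.W adj (S.filter fun r => cl r = c) : ℝ) := h2
    _ ≤ 8 * H691.kST * kp (Fintype.card σ) m *
        (4 * (2 : ℝ) ^ (-((Fintype.card σ * m : ℕ) : ℝ) * (7 / 5 - 1)) * H190.W adj S) := by
        gcongr
    _ = (8 * H691.kST * kp (Fintype.card σ) m) *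
        (4 * (2 : ℝ) ^ (-((Fintype.card σ * m : ℕ) : ℝ) * (7 / 5 - 1))) * H190.W adj S := by ring
    _ ≤ Kp (Fintype.card σ) * ((2 : ℝ) ^ m)⁻¹ * H190.W adj S := by gcongr

end Vale.Agent.P054.T3.H398
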