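import Vale.Agent.P054.T3.H398.Cnt
import Vale.Agent.P054.T3.H109.WarrenSpan

set_option autoImplicit false
set_option linter.all false

/-!
# P054 / T3 / H398: cells for an extremal vertex set

`S` a finite set, `e` a functional on the subsets of `S` with `#{E-pairs in T} ≤ e T`, which is extremal:
`e T |S|^θ ≤ e S |T|^θ` for `T ⊆ S`, `z₀ ≤ |T|`.  Then there are classes such that a `k`-flat meets at
most `κ₀` of them and the `E`-pairs inside the classes are at most `ε / κ₀ * e S`.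
-/

namespace Vale.Agent.P054.T3.H398

open Finset MvPolynomial Module

/-- number of classes met by a `k`-flat -/
def kap (k d m : ℕ) : ℕ := (k * (2 * d ^ 2 * 2 ^ m + 2)) ^ k + 1

theorem kap_le (k d m : ℕ) : kap k d m ≤ ((k * (2 * d ^ 2 + 2)) ^ k + 1) * (2 ^ m) ^ k := by
  unfold kap
  have h1 : 1 ≤ 2 ^ m := Nat.one_le_two_pow
  have h2 : k * (2 * d ^ 2 * 2 ^ m + 2) ≤ k * (2 * d ^ 2 + 2) * 2 ^ m := by
    calc k * (2 * d ^ 2 * 2 ^ m + 2) ≤ k * ((2 * d ^ 2 + 2) * 2 ^ m) := by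
          refine Nat.mul_le_mul_left _ ?_
          rw [add_mul]
          omega
      _ = _ := by ring
  have h3 : 1 ≤ (2 ^ m) ^ k := Nat.one_le_pow _ _ (by positivity)
  calc (k * (2 * d ^ 2 * 2 ^ m + 2)) ^ k + 1 ≤ (k * (2 * d ^ 2 + 2) * 2 ^ m) ^ k + (2 ^ m) ^ k :=
        Nat.add_le_add (Nat.pow_le_pow_left h2 k) h3
    _ = _ := by rw [mul_pow]; ring

/-- choice of the number of levels -/
theorem exists_level (k d : ℕ) (θ : ℝ) (hk : (k : ℝ) < d * (θ - 1)) {ε : ℝ} (hε : 0 < ε) :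
    ∃ m : ℕ, (kap k d m : ℝ) * (2 : ℝ) ^ (-((d * m : ℕ) : ℝ) * (θ - 1)) ≤ ε := by
  set C : ℝ := (((k * (2 * d ^ 2 + 2)) ^ k + 1 : ℕ) : ℝ) with hC
  have hC0 : 0 < C := by rw [hC]; positivity
  set q : ℝ := (2 : ℝ) ^ ((k : ℝ) - d * (θ - 1)) with hq
  have hq0 : 0 ≤ q := by positivity
  have hq1 : q < 1 := Real.rpow_lt_one_of_one_lt_of_neg (by norm_num) (by linarith)
  obtain ⟨m, hm⟩ := exists_pow_lt_of_lt_one (div_pos hε hC0) hq1
  refine ⟨m, ?_⟩
  have h1 : (kap k d m : ℝ) ≤ C * ((2 : ℝ) ^ m) ^ k := by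
    have := kap_le k d m
    rw [hC]; exact_mod_cast this
  have h2 : ((2 : ℝ) ^ m) ^ k * (2 : ℝ) ^ (-((d * m : ℕ) : ℝ) * (θ - 1)) = q ^ m := by
    rw [hq, ← Real.rpow_natCast ((2 : ℝ) ^ ((k : ℝ) - d * (θ - 1))) m,
      ← Real.rpow_mul (by norm_num), ← pow_mul, ← Real.rpow_natCast (2 : ℝ) (m * k),
      ← Real.rpow_add (by norm_num)]
    congr 1
    push_cast
    ring
  calc (kap k d m : ℝ) * (2 : ℝ) ^ (-((d * m : ℕ) : ℝ) * (θ - 1))
      ≤ (C * ((2 : ℝ) ^ m) ^ k) * (2 : ℝ) ^ (-((d * m : ℕ) : ℝ) * (θ - 1)) := by gcongr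
    _ = C * q ^ m := by rw [mul_assoc, h2]
    _ ≤ C * (ε / C) := by gcongr
    _ = ε := by field_simp

variable {V : Type*}

open scoped Classical in
/-- the pairs inside the classes, for an extremal set -/
theorem same_class_le {C : Type*} (S : Finset V) (E : V → V → Prop) (e : Finset V → ℝ)
    (he' : ∀ T ⊆ S, ∀ s : Finset (V × V), (∀ p ∈ s, p ∈ T.offDiag ∧ E p.1 p.2) →
      (s.card : ℝ) ≤ e T) {θ : ℝ} (hθ : 1 ≤ θ)
    {z₀ : ℝ} (hext : ∀ T ⊆ S, z₀ ≤ T.card → e T * (S.card : ℝ) ^ θ ≤ e S * (T.card : ℝ) ^ θ)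
    (cl : V → Option C) {α δ : ℝ} (hα : 0 ≤ α) (hδ : 0 ≤ δ) (hδ1 : δ ≤ 1)
    (hcell' : ∀ c, ∀ Z ⊆ S, (∀ v ∈ Z, cl v = some c) → (Z.card : ℝ) ≤ α * S.card)
    (hnone' : ∀ Z ⊆ S, (∀ v ∈ Z, cl v = none) → (Z.card : ℝ) ≤ δ * S.card)
    (hz : z₀ + 1 ≤ δ * S.card) {q : ℕ}
    (hq' : ∀ Q : Finset (Option C), (∀ c ∈ Q, ∃ v ∈ S, cl v = c) → Q.card ≤ q)
    (R : Finset (V × V)) (hR : ∀ p ∈ R, p ∈ S.offDiag ∧ E p.1 p.2 ∧ cl p.1 = cl p.2) :
    (R.card : ℝ) ≤ e S * (α ^ (θ - 1) + δ + q * δ) := by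
  have he : ∀ T ⊆ S, ((T.offDiag.filter fun p => E p.1 p.2).card : ℝ) ≤ e T :=
    fun T hT => he' T hT _ fun p hp => mem_filter.1 hp
  have hcell : ∀ c, ((S.filter fun v => cl v = some c).card : ℝ) ≤ α * S.card :=
    fun c => hcell' c _ (filter_subset _ _) fun v hv => (mem_filter.1 hv).2
  have hnone : ((S.filter fun v => cl v = none).card : ℝ) ≤ δ * S.card :=
    hnone' _ (filter_subset _ _) fun v hv => (mem_filter.1 hv).2
  have hq : (S.image cl).card ≤ q := hq' _ fun c hc => by simpa using hc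
  have hRc : (R.card : ℝ) ≤
      ((S.offDiag.filter fun p => E p.1 p.2 ∧ cl p.1 = cl p.2).card : ℝ) := by
    refine Nat.cast_le.2 (card_le_card ?_)
    intro p hp
    rw [mem_filter]
    exact hR p hp
  refine hRc.trans ?_
  rcases S.eq_empty_or_nonempty with rfl | hne
  · have h0 := he ∅ (Finset.Subset.refl _)
    simp only [offDiag_empty, filter_empty, card_empty, Nat.cast_zero] at h0 ⊢
    positivity
  have hN : (0 : ℝ) < S.card := by exact_mod_cast hne.card_pos
  have heS : 0 ≤ e S := le_trans (Nat.cast_nonneg _) (he S (Finset.Subset.refl _))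
  set m₀ : ℕ := ⌈z₀⌉₊ with hm₀
  have hm₀z : z₀ ≤ m₀ := Nat.le_ceil _
  have hm₀' : (m₀ : ℝ) ≤ δ * S.card := by
    rcases le_or_gt z₀ 0 with h | h
    · rw [hm₀, Nat.ceil_eq_zero.2 h]; push_cast; positivity
    · exact (Nat.ceil_lt_add_one h.le).le.trans hz
  have hm₀S : m₀ ≤ S.card := by
    have : (m₀ : ℝ) ≤ S.card := hm₀'.trans (by nlinarith)
    exact_mod_cast this
  -- one set
  have one : ∀ T ⊆ S, ((T.offDiag.filter fun p => E p.1 p.2).card : ℝ) ≤
      e S * (((T.card : ℝ) / S.card) ^ θ + δ) := by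
    intro T hT
    rcases le_or_gt m₀ T.card with h | h
    · have h1 := hext T hT (hm₀z.trans (by exact_mod_cast h))
      have h2 : e T ≤ e S * ((T.card : ℝ) / S.card) ^ θ := by
        rw [Real.div_rpow (Nat.cast_nonneg _) hN.le, ← mul_div_assoc,
          le_div_iff₀ (Real.rpow_pos_of_pos hN _)]
        exact h1
      refine (he T hT).trans (h2.trans ?_)
      gcongr
      linarith
    · obtain ⟨T', hTT', hT'S, hc⟩ := Finset.exists_subsuperset_card_eq hT h.le hm₀S
      have h1 := hext T' hT'S (by rw [hc]; exact hm₀z)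
      have h2 : e T' ≤ e S * ((m₀ : ℝ) / S.card) ^ θ := by
        rw [Real.div_rpow (Nat.cast_nonneg _) hN.le, ← mul_div_assoc,
          le_div_iff₀ (Real.rpow_pos_of_pos hN _)]
        rw [hc] at h1
        exact h1
      have h3 : ((m₀ : ℝ) / S.card) ^ θ ≤ δ := by
        have h4 : (m₀ : ℝ) / S.card ≤ δ := by rwa [div_le_iff₀ hN]
        calc ((m₀ : ℝ) / S.card) ^ θ ≤ ((m₀ : ℝ) / S.card) ^ (1 : ℝ) :=
              Real.rpow_le_rpow_of_exponent_ge' (by positivity) (h4.trans hδ1) zero_le_one hθ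
          _ ≤ δ := by rw [Real.rpow_one]; exact h4
      have h5 : ((T.offDiag.filter fun p => E p.1 p.2).card : ℝ) ≤
          ((T'.offDiag.filter fun p => E p.1 p.2).card : ℝ) := by
        exact_mod_cast card_le_card (filter_subset_filter _ (Finset.offDiag_mono hTT'))
      refine h5.trans ((he T' hT'S).trans (h2.trans ?_))
      have h6 : 0 ≤ ((T.card : ℝ) / S.card) ^ θ := by positivity
      gcongr
      linarith
  -- sum over the classes
  have hsum : ((S.offDiag.filter fun p => E p.1 p.2 ∧ cl p.1 = cl p.2).card : ℝ) ≤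
      ∑ c ∈ S.image cl,
        (((S.filter fun v => cl v = c).offDiag.filter fun p => E p.1 p.2).card : ℝ) := by
    have h1 : (S.offDiag.filter fun p => E p.1 p.2 ∧ cl p.1 = cl p.2) ⊆
        (S.image cl).biUnion fun c => (S.filter fun v => cl v = c).offDiag.filter
          fun p => E p.1 p.2 := by
      intro p hp
      rw [mem_filter, mem_offDiag] at hp
      obtain ⟨⟨h1, h2, h3⟩, h4, h5⟩ := hp
      rw [mem_biUnion]
      refine ⟨cl p.1, mem_image_of_mem _ h1, ?_⟩
      rw [mem_filter, mem_offDiag, mem_filter, mem_filter]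
      exact ⟨⟨⟨h1, rfl⟩, ⟨h2, h5.symm⟩, h3⟩, h4⟩
    exact_mod_cast (card_le_card h1).trans card_biUnion_le
  refine hsum.trans ?_
  have hpart : ∑ c ∈ S.image cl, ((S.filter fun v => cl v = c).card : ℝ) = S.card := by
    exact_mod_cast (Finset.card_eq_sum_card_image cl S).symm
  -- bound of one class
  have hcls : ∀ c ∈ S.image cl,
      (((S.filter fun v => cl v = c).offDiag.filter fun p => E p.1 p.2).card : ℝ) ≤
        e S * (α ^ (θ - 1) * (((S.filter fun v => cl v = c).card : ℝ) / S.card) +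
          (if c = none then δ else 0) + δ) := by
    intro c hc
    refine (one _ (filter_subset _ _)).trans ?_
    set x : ℝ := ((S.filter fun v => cl v = c).card : ℝ) / S.card with hx
    have hx0 : 0 ≤ x := by positivity
    have hx1 : x ≤ 1 := by
      rw [hx, div_le_one hN]; exact_mod_cast card_le_card (filter_subset _ _)
    have key : x ^ θ ≤ α ^ (θ - 1) * x + (if c = none then δ else 0) := by
      rcases c with _ | c
      · rw [if_pos rfl]
        have h1 : x ≤ δ := by rw [hx, div_le_iff₀ hN]; exact hnone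
        have h2 : x ^ θ ≤ x := by
          calc x ^ θ ≤ x ^ (1 : ℝ) := Real.rpow_le_rpow_of_exponent_ge' hx0 hx1 zero_le_one hθ
            _ = x := Real.rpow_one _
        have h3 : 0 ≤ α ^ (θ - 1) * x := by positivity
        linarith
      · rw [if_neg (by simp)]
        have h1 : x ≤ α := by rw [hx, div_le_iff₀ hN]; exact hcell c
        rcases eq_or_lt_of_le hx0 with h0 | h0
        · rw [← h0, Real.zero_rpow (by linarith)]; simp
        · have h2 : x ^ θ = x ^ (θ - 1) * x := by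
            rw [← Real.rpow_add_one h0.ne']; congr 1; ring
          rw [h2, add_zero]
          have h3 : x ^ (θ - 1) ≤ α ^ (θ - 1) := Real.rpow_le_rpow hx0 h1 (by linarith)
          gcongr
    have : x ^ θ + δ ≤ α ^ (θ - 1) * x + (if c = none then δ else 0) + δ := by linarith
    gcongr
  calc ∑ c ∈ S.image cl,
        (((S.filter fun v => cl v = c).offDiag.filter fun p => E p.1 p.2).card : ℝ)
      ≤ ∑ c ∈ S.image cl, e S * (α ^ (θ - 1) *
          (((S.filter fun v => cl v = c).card : ℝ) / S.card) + (if c = none then δ else 0) + δ) :=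
        Finset.sum_le_sum hcls
    _ = e S * (α ^ (θ - 1) * (∑ c ∈ S.image cl, ((S.filter fun v => cl v = c).card : ℝ) / S.card) +
          (∑ c ∈ S.image cl, (if c = none then δ else 0)) + (S.image cl).card * δ) := by
        rw [← Finset.mul_sum, Finset.sum_add_distrib, Finset.sum_add_distrib, ← Finset.mul_sum,
          Finset.sum_const, nsmul_eq_mul]
    _ ≤ e S * (α ^ (θ - 1) + δ + q * δ) := by
        have h1 : ∑ c ∈ S.image cl, ((S.filter fun v => cl v = c).card : ℝ) / S.card = 1 := by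
          rw [← Finset.sum_div, hpart, div_self hN.ne']
        have h2 : ∑ c ∈ S.image cl, (if c = none then δ else 0) ≤ δ := by
          rw [Finset.sum_ite_eq']
          split_ifs
          · exact le_rfl
          · exact hδ
        have h3 : ((S.image cl).card : ℝ) ≤ q := by exact_mod_cast hq
        rw [h1, mul_one]
        gcongr

/-- **cells for an extremal set** -/
theorem exists_cells {σ : Type*} [Fintype σ] [DecidableEq σ] [AddCommGroup V] [Module ℝ V]
    [FiniteDimensional ℝ V] (φ : V →ₗ[ℝ] (σ → ℝ)) (k : ℕ) {θ : ℝ}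
    (hk : (k : ℝ) < Fintype.card σ * (θ - 1)) (hθ : 1 ≤ θ) {ε : ℝ} (hε : 0 < ε) :
    ∃ κ₀ J D : ℕ, 1 ≤ κ₀ ∧ ∃ δ : ℝ, 0 < δ ∧ δ ≤ 1 ∧
      ∀ (S : Finset V) (E : V → V → Prop) (e : Finset V → ℝ) (z₀ : ℝ),
        (∀ T ⊆ S, ∀ s : Finset (V × V), (∀ p ∈ s, p ∈ T.offDiag ∧ E p.1 p.2) → (s.card : ℝ) ≤ e T) →
        (∀ T ⊆ S, z₀ ≤ T.card → e T * (S.card : ℝ) ^ θ ≤ e S * (T.card : ℝ) ^ θ) →
        z₀ + 1 ≤ δ * S.card →
        (∀ f : Fin J → MvPolynomial σ ℝ, (∀ j, f j ≠ 0) → ∑ j, (f j).totalDegree ≤ D →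
          ∀ Z ⊆ S, (∀ s ∈ Z, ∃ j, eval (φ s) (f j) = 0) → (Z.card : ℝ) ≤ δ * S.card) →
        ∃ cl : V → Option (Fin J → Bool),
          (∀ T ⊆ S, finrank ℝ (vectorSpan ℝ (T : Set V)) ≤ k → (T.image cl).card ≤ κ₀) ∧
          ∀ R : Finset (V × V), (∀ p ∈ R, p ∈ S.offDiag ∧ E p.1 p.2 ∧ cl p.1 = cl p.2) →
            κ₀ * (R.card : ℝ) ≤ ε * e S := by
  classical
  set d := Fintype.card σ with hd
  have hd0 : 0 < d := by
    rcases Nat.eq_zero_or_pos d with h | h
    · rw [h] at hk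
      simp only [Nat.cast_zero, zero_mul] at hk
      exact absurd hk (not_lt.2 (Nat.cast_nonneg _))
    · exact h
  obtain ⟨m, hm⟩ := exists_level k d θ hk (show 0 < ε / 2 by positivity)
  set κ₀ := kap k d m with hκ
  have hκ1 : 1 ≤ κ₀ := by rw [hκ]; unfold kap; omega
  have hκr : (0 : ℝ) < κ₀ := by exact_mod_cast hκ1
  set J := d * m with hJ
  set q : ℕ := 2 ^ J + 1 with hq
  set δ : ℝ := min 1 (ε / (2 * κ₀ * (1 + q))) with hδ
  have hδ0 : 0 < δ := by rw [hδ]; exact lt_min one_pos (by positivity)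
  have hδ1 : δ ≤ 1 := min_le_left _ _
  refine ⟨κ₀, J, 2 * d ^ 2 * 2 ^ m, hκ1, δ, hδ0, hδ1, ?_⟩
  intro S E e z₀ he hext hz hzero
  obtain ⟨f, hf0, hfd, hfc⟩ := H109.partition_exists (σ := σ) hd0 S (fun v => φ v) m
  let cl : V → Option (Fin J → Bool) := fun v =>
    if ∃ j, eval (φ v) (f j) = 0 then none else some (H109.sgn f (φ v))
  refine ⟨cl, ?_, ?_⟩
  · intro T hT hrk
    set T' := T.filter fun v => ¬ ∃ j, eval (φ v) (f j) = 0 with hT'
    have h1 : T.image cl ⊆ insert none ((T'.image fun v => H109.sgn f (φ v)).image some) := by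
      intro c hc
      obtain ⟨v, hv, rfl⟩ := mem_image.1 hc
      simp only [cl]
      split_ifs with h
      · exact mem_insert_self _ _
      · refine mem_insert_of_mem (mem_image_of_mem _ ?_)
        exact mem_image_of_mem (fun v => H109.sgn f (φ v)) (mem_filter.2 ⟨hv, h⟩)
    have h2 : (T'.image fun v => H109.sgn f (φ v)).card ≤
        (k * (∑ j, (f j).totalDegree + 2)) ^ k := by
      refine H109.card_sgn_span_map f φ T' ?_ ?_
      · refine le_trans ?_ hrk
        exact Submodule.finrank_mono (vectorSpan_mono ℝ (by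
          intro v hv
          rw [mem_coe] at hv ⊢
          exact filter_subset _ _ hv))
      · intro v hv j h
        exact (mem_filter.1 hv).2 ⟨j, h⟩
    have h3 : (k * (∑ j, (f j).totalDegree + 2)) ^ k ≤ (k * (2 * d ^ 2 * 2 ^ m + 2)) ^ k := by
      refine Nat.pow_le_pow_left (Nat.mul_le_mul_left _ ?_) _
      have : ∑ j, (f j).totalDegree ≤ 2 * d ^ 2 * 2 ^ m := hfd
      omega
    calc (T.image cl).card ≤ _ := card_le_card h1
      _ ≤ ((T'.image fun v => H109.sgn f (φ v)).image some).card + 1 := card_insert_le _ _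
      _ ≤ (T'.image fun v => H109.sgn f (φ v)).card + 1 := by
          have := card_image_le (s := T'.image fun v => H109.sgn f (φ v)) (f := some)
          omega
      _ ≤ (k * (2 * d ^ 2 * 2 ^ m + 2)) ^ k + 1 := by omega
  · intro R hR
    have hJ2 : (0 : ℝ) < 2 ^ J := by positivity
    set α : ℝ := (1 / 2 ^ J : ℝ) with hα
    have hα0 : 0 ≤ α := by rw [hα]; positivity
    have h2 := same_class_le S E e he hθ hext cl
      (α := α) (δ := δ) (q := q) hα0 hδ0.le hδ1 ?_ ?_ hz ?_ R hR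
    · have h3 : α ^ (θ - 1) = (2 : ℝ) ^ (-((d * m : ℕ) : ℝ) * (θ - 1)) := by
        rw [hα, one_div, Real.rpow_mul (by norm_num), Real.rpow_neg (by norm_num),
          Real.rpow_natCast]
      have heS : 0 ≤ e S := by
        have := he S (Finset.Subset.refl _) ∅ (by simp)
        simpa using this
      have h4 : κ₀ * (δ + q * δ) ≤ ε / 2 := by
        have h5 : δ ≤ ε / (2 * κ₀ * (1 + q)) := min_le_right _ _
        calc κ₀ * (δ + q * δ) = κ₀ * (1 + q) * δ := by ring
          _ ≤ κ₀ * (1 + q) * (ε / (2 * κ₀ * (1 + q))) := by gcongr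
          _ = ε / 2 := by field_simp
      calc κ₀ * (R.card : ℝ) ≤ κ₀ * (e S * (α ^ (θ - 1) + δ + q * δ)) := by
            gcongr
        _ = e S * (κ₀ * α ^ (θ - 1) + κ₀ * (δ + q * δ)) := by ring
        _ ≤ e S * (ε / 2 + ε / 2) := by
            rw [h3]
            gcongr
        _ = ε * e S := by ring
    · intro c Z hZS hZ
      have h3 := hfc c
      have h4 : Z ⊆ S.filter fun v => H109.cell f c (φ v) := by
        intro v hv
        rw [mem_filter]
        refine ⟨hZS hv, ?_⟩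
        have h5 := hZ v hv
        simp only [cl] at h5
        split_ifs at h5 with h6
        have h7 : H109.sgn f (φ v) = c := by simpa using h5
        have h8 : ∀ j, eval (φ v) (f j) ≠ 0 := fun j h => h6 ⟨j, h⟩
        rw [← h7]
        exact H109.cell_sgn h8
      have h5 : (2 ^ J * Z.card : ℕ) ≤ S.card :=
        (Nat.mul_le_mul_left _ (card_le_card h4)).trans h3
      have h6 : (2 : ℝ) ^ J * (Z.card : ℝ) ≤ S.card := by
        exact_mod_cast h5
      rw [hα, one_div, inv_mul_eq_div, le_div_iff₀ hJ2, mul_comm]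
      exact h6
    · intro Z hZS hZ
      refine hzero f hf0 hfd Z hZS ?_
      intro v hv
      have h5 := hZ v hv
      simp only [cl] at h5
      split_ifs at h5 with h6
      exact h6
    · intro Q hQ
      have h3 : Q.card ≤ Fintype.card (Option (Fin J → Bool)) := card_le_univ _
      refine h3.trans ?_
      rw [Fintype.card_option, Fintype.card_fun, Fintype.card_bool, Fintype.card_fin]

end Vale.Agent.P054.T3.H398
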