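import Vale.Agent.P054.T3.H398.Crit
import Vale.Agent.P054.T2.H686.Deg0

set_option autoImplicit false
set_option linter.all false

/-!
# P054 / T3 / H398: a `k`-flat meets at most `C_k D^k` sign classes
-/

namespace Vale.Agent.P054.T3.H398

open MvPolynomial Finset Module

variable {k : ℕ}

theorem card_le_of_full' {σ ι : Type*} [Fintype σ] [DecidableEq σ] [DecidableEq (σ → ℝ)]
    (x : ι → σ → ℝ) (A : Finset ι) {c : ℕ} (hc : c = Fintype.card σ)
    (f : Fin c → MvPolynomial σ ℝ) (d : ℕ) (hd1 : 1 ≤ d)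
    (hd : ∀ j, (f j).totalDegree ≤ d) (hev : ∀ e ∈ A, ∀ j, eval (x e) (f j) = 0)
    (hind : ∀ e ∈ A, LinearIndependent ℝ (fun j => Vale.Agent.P054.T2.H930.grad (x e) (f j))) :
    (A.image x).card ≤ (c + 1) ^ c * d ^ c := by
  subst hc
  exact Vale.Agent.P054.T2.H686.card_le_of_full x A f d hd1 hd hev hind

/-- **number of sign vectors** of polynomials on `ℝ^k` -/
theorem card_signs {J : ℕ} (g : Fin J → MvPolynomial (Fin k) ℝ) (T : Finset (Fin k → ℝ))
    (hT : ∀ x ∈ T, ∀ j, eval x (g j) ≠ 0) :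
    (T.image (sgn g)).card ≤ (k + 1) ^ k * (2 * ∑ j, (g j).totalDegree + 2) ^ k := by
  classical
  -- representatives
  obtain ⟨T', hT'T, hT'c, hinj⟩ : ∃ T' ⊆ T, T'.card = (T.image (sgn g)).card ∧
      ∀ x ∈ T', ∀ y ∈ T', sgn g x = sgn g y → x = y := by
    have h0 : ∀ b : {b // b ∈ T.image (sgn g)}, ∃ x ∈ T, sgn g x = b.1 :=
      fun b => mem_image.1 b.2
    choose w hw1 hw2 using h0
    refine ⟨univ.image w, ?_, ?_, ?_⟩
    · intro x hx
      obtain ⟨b, -, rfl⟩ := mem_image.1 hx
      exact hw1 b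
    · rw [Finset.card_image_of_injective]
      · simp
      · intro b b' h
        apply Subtype.ext
        rw [← hw2 b, ← hw2 b', h]
    · intro x hx y hy h
      obtain ⟨b, -, rfl⟩ := mem_image.1 hx
      obtain ⟨b', -, rfl⟩ := mem_image.1 hy
      rw [hw2, hw2] at h
      rw [Subtype.ext h]
  obtain ⟨h, hdeg, a, Z, hTZ, hZ⟩ := exists_crit g T' (fun x hx => hT x (hT'T hx)) hinj
  rw [← hT'c]
  refine hTZ.trans ?_
  have h1 := card_le_of_full' (σ := Fin k)
    (fun z : Fin k → ℝ => z) Z (c := k) (Fintype.card_fin k).symm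
    (fun i => pderiv i h - C (a i)) (2 * ∑ j, (g j).totalDegree + 2)
    (by omega)
    (fun i => by
      refine (totalDegree_sub _ _).trans (max_le ?_ ?_)
      · exact (pderiv_degree_le h i).trans hdeg
      · rw [totalDegree_C]; omega)
    (fun z hz i => by
      have h2 := congrFun (hZ z hz).1 i
      simp only [gmap] at h2
      rw [map_sub, eval_C, h2, sub_self])
    (fun z hz => by
      have h2 := li_of_det h z (hZ z hz).2
      refine (linearIndependent_equiv (Equiv.refl _)).1 ?_
      convert h2 using 1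
      funext i
      funext j
      simp [Vale.Agent.P054.T2.H930.grad])
  simpa using h1

theorem totalDegree_aeval_le {σ τ : Type*} (φ : σ → MvPolynomial τ ℝ)
    (hφ : ∀ s, (φ s).totalDegree ≤ 1) (p : MvPolynomial σ ℝ) :
    (aeval φ p).totalDegree ≤ p.totalDegree := by
  classical
  conv_lhs => rw [p.as_sum]
  rw [map_sum]
  refine totalDegree_finsetSum_le fun m hm => ?_
  rw [aeval_monomial]
  refine (totalDegree_mul _ _).trans ?_
  have h0 : (algebraMap ℝ (MvPolynomial τ ℝ) (coeff m p)).totalDegree = 0 := totalDegree_C _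
  rw [h0, zero_add]
  refine le_trans ?_ (le_totalDegree hm)
  unfold Finsupp.prod Finsupp.sum
  refine (totalDegree_finset_prod _ _).trans ?_
  refine Finset.sum_le_sum fun s _ => ?_
  refine (totalDegree_pow _ _).trans ?_
  calc m s * (φ s).totalDegree ≤ m s * 1 := Nat.mul_le_mul_left _ (hφ s)
    _ = m s := mul_one _

theorem eval_aeval_mv {σ τ : Type*} (φ : σ → MvPolynomial τ ℝ) (v : τ → ℝ)
    (p : MvPolynomial σ ℝ) : eval v (aeval φ p) = eval (fun s => eval v (φ s)) p := by
  induction p using MvPolynomial.induction_on with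
  | C a => simp
  | add p q hp hq => rw [map_add, map_add, map_add, hp, hq]
  | mul_X p i hp => rw [map_mul, map_mul, map_mul, hp, aeval_X, eval_X]

/-- **a `k`-flat meets few sign classes** -/
theorem card_cells_flat {σ : Type*} [Fintype σ] {J : ℕ} (f : Fin J → MvPolynomial σ ℝ)
    (S : Finset (σ → ℝ)) (hk : finrank ℝ (vectorSpan ℝ (S : Set (σ → ℝ))) ≤ k)
    (hS : ∀ y ∈ S, ∀ j, eval y (f j) ≠ 0) :
    (S.image (sgn f)).card ≤ (k + 1) ^ k * (2 * ∑ j, (f j).totalDegree + 2) ^ k := by
  classical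
  rcases S.eq_empty_or_nonempty with rfl | ⟨y₀, hy₀⟩
  · simp
  set W := vectorSpan ℝ (S : Set (σ → ℝ)) with hW
  let b := Module.finBasis ℝ W
  let c : Fin (finrank ℝ W) → Fin k := Fin.castLE hk
  have hc : Function.Injective c := Fin.castLE_injective hk
  set φ : σ → MvPolynomial (Fin k) ℝ := fun s =>
    C (y₀ s) + ∑ i, C ((b i : σ → ℝ) s) * X (c i) with hφ
  have hφd : ∀ s, (φ s).totalDegree ≤ 1 := by
    intro s
    refine (totalDegree_add _ _).trans (max_le ?_ ?_)
    · rw [totalDegree_C]; omega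
    · refine totalDegree_finsetSum_le fun i _ => ?_
      refine (totalDegree_mul _ _).trans ?_
      rw [totalDegree_C, totalDegree_X, zero_add]
  set g : Fin J → MvPolynomial (Fin k) ℝ := fun j => aeval φ (f j) with hg
  have hgd : ∑ j, (g j).totalDegree ≤ ∑ j, (f j).totalDegree :=
    Finset.sum_le_sum fun j _ => totalDegree_aeval_le φ hφd (f j)
  -- coordinates of the points
  have hpt : ∀ y ∈ S, ∃ v : Fin k → ℝ, ∀ s, eval v (φ s) = y s := by
    intro y hy
    have h1 : y - y₀ ∈ W := vsub_mem_vectorSpan ℝ (by exact_mod_cast hy) (by exact_mod_cast hy₀)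
    set u := b.repr ⟨y - y₀, h1⟩ with hu
    refine ⟨fun l => if h : ∃ i, c i = l then u h.choose else 0, fun s => ?_⟩
    have h2 : ∀ i, (if h : ∃ i', c i' = c i then u h.choose else 0) = u i := by
      intro i
      have h3 : ∃ i', c i' = c i := ⟨i, rfl⟩
      rw [dif_pos h3, hc h3.choose_spec]
    have h4 : (∑ i, u i • (b i : σ → ℝ)) = y - y₀ := by
      have h5 : (∑ i, u i • b i : W) = ⟨y - y₀, h1⟩ := b.sum_repr ⟨y - y₀, h1⟩
      have h6 := congrArg (fun w : W => (w : σ → ℝ)) h5
      simp only [Submodule.coe_sum, Submodule.coe_smul] at h6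
      exact h6
    have h7 := congrFun h4 s
    simp only [Finset.sum_apply, Pi.smul_apply, smul_eq_mul, Pi.sub_apply] at h7
    simp only [hφ, map_add, map_sum, map_mul, eval_C, eval_X, h2]
    have h8 : ∑ i, (b i : σ → ℝ) s * u i = ∑ i, u i * (b i : σ → ℝ) s :=
      Finset.sum_congr rfl fun i _ => mul_comm _ _
    rw [h8, h7]
    ring
  choose! v hv using hpt
  have hev : ∀ y ∈ S, ∀ j, eval (v y) (g j) = eval y (f j) := by
    intro y hy j
    simp only [hg]
    rw [eval_aeval_mv]
    have h1 : (fun s => eval (v y) (φ s)) = y := by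
      funext s
      exact hv y hy s
    rw [h1]
  have h1 := card_signs g (S.image v) (by
    intro x hx j
    obtain ⟨y, hy, rfl⟩ := mem_image.1 hx
    rw [hev y hy j]
    exact hS y hy j)
  have h2 : S.image (sgn f) ⊆ (S.image v).image (sgn g) := by
    intro s hs
    obtain ⟨y, hy, rfl⟩ := mem_image.1 hs
    refine mem_image.2 ⟨v y, mem_image_of_mem _ hy, ?_⟩
    funext j
    unfold sgn
    rw [hev y hy j]
  refine (card_le_card h2).trans (h1.trans ?_)
  exact Nat.mul_le_mul_left _ (Nat.pow_le_pow_left (by omega) _)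

end Vale.Agent.P054.T3.H398
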